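import Vale.Agent.P167.H635.Star

/-!
# Comparison of two boundary conditions near a wired side, `q ≤ 1` (graph level)

`f` is a vertex (a block of `ρ`: the wired side) of both sets `W` (the wired outside) and `T` (the
vertices of the inner box). `dl1f`, `dl2f`: with `N` = no cluster joins `T` and `W` off `f`,
`Z^W(N) Z^T ≤ Z^{W ∪ T} Z ≤ Z^W Z^T`, for an arbitrary boundary condition `ρ`.
-/

namespace Vale.Agent.P167.H587

open Finset Vale.Agent.P167.H623 Vale.Agent.P167.H661 Vale.Agent.P167.H635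

set_option linter.unusedSectionVars false

variable {V E : Type*} [Fintype V] [DecidableEq V] [Fintype E] [DecidableEq E]
  (a b : E → V) {w : E → ℝ} {q : ℝ}

/-! ### Blocks -/

theorem blk_union {W T : Finset V} {f : V} (hW : f ∈ W) (hT : f ∈ T) :
    blk (W ∪ T) = blk W ⊔ blk T := by
  ext x y
  rw [sup_blk_iff]
  simp only [blk_iff, mem_union]
  constructor
  · rintro (rfl | ⟨hx, hy⟩)
    · exact Or.inl (Or.inl rfl)
    · refine Or.inr ⟨?_, ?_⟩
      · rcases hx with h | h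
        · exact ⟨f, hT, Or.inr ⟨h, hW⟩⟩
        · exact ⟨x, h, Or.inl rfl⟩
      · rcases hy with h | h
        · exact ⟨f, hT, Or.inr ⟨h, hW⟩⟩
        · exact ⟨y, h, Or.inl rfl⟩
  · rintro ((rfl | ⟨hx, hy⟩) | ⟨⟨z, hz, h⟩, z', hz', h'⟩)
    · exact Or.inl rfl
    · exact Or.inr ⟨Or.inl hx, Or.inl hy⟩
    · refine Or.inr ⟨?_, ?_⟩
      · rcases h with rfl | h
        · exact Or.inr hz
        · exact Or.inl h.1
      · rcases h' with rfl | h'
        · exact Or.inr hz'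
        · exact Or.inl h'.1

theorem blk_pair (x y : V) : blk {x, y} = join x y := by
  ext u v
  show (u = v ∨ (u ∈ ({x, y} : Finset V) ∧ v ∈ ({x, y} : Finset V))) ↔
    (u = v ∨ (u = x ∧ v = y) ∨ (u = y ∧ v = x))
  simp only [mem_insert, mem_singleton]
  constructor
  · rintro (h | ⟨h | h, h' | h'⟩)
    · exact Or.inl h
    · exact Or.inl (h.trans h'.symm)
    · exact Or.inr (Or.inl ⟨h, h'⟩)
    · exact Or.inr (Or.inr ⟨h, h'⟩)
    · exact Or.inl (h.trans h'.symm)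
  · rintro (h | ⟨h, h'⟩ | ⟨h, h'⟩)
    · exact Or.inl h
    · exact Or.inr ⟨Or.inl h, Or.inr h'⟩
    · exact Or.inr ⟨Or.inr h, Or.inl h'⟩

theorem blk_single (x : V) : blk ({x} : Finset V) = ⊥ := by
  refine le_antisymm ?_ bot_le
  rintro u v (h | ⟨h, h'⟩)
  · exact h
  · rw [mem_singleton] at h h'
    exact h.trans h'.symm

theorem sup_join_congr {ρ : Setoid V} {x u v : V} (h : ρ x u) : ρ ⊔ join x v = ρ ⊔ join u v := by
  have key : ∀ {x u : V}, ρ x u → ρ ⊔ join x v ≤ ρ ⊔ join u v := by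
    intro x u h
    refine sup_le le_sup_left ?_
    have h1 : ρ ≤ ρ ⊔ join u v := le_sup_left
    have h2 : join u v ≤ ρ ⊔ join u v := le_sup_right
    have h3 : (ρ ⊔ join u v) x v := Setoid.trans' _ (h1 h) (h2 (Or.inr (Or.inl ⟨rfl, rfl⟩)))
    rintro y z (rfl | ⟨rfl, rfl⟩ | ⟨rfl, rfl⟩)
    · exact Setoid.refl' _ _
    · exact h3
    · exact Setoid.symm' _ h3
  exact le_antisymm (key h) (key (Setoid.symm' _ h))

/-! ### `T1` with a common vertex -/

theorem xx_f {s : ℝ} (hw : ∀ e, 0 ≤ w e) (hs0 : 0 ≤ s) (hs : s < 1) {W T : Finset V} {f : V}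
    (hfW : f ∈ W) (hfT : f ∈ T) :
    XX a b w s (W ∪ T)ᶜ * XX a b w s {f}ᶜ ≤ XX a b w s Wᶜ * XX a b w s Tᶜ := by
  have h1 := xx_mono a b hw hs0 hs (D := (W ∪ T)ᶜ) (D' := (T \ W ∪ {f})ᶜ) (U := T \ W) ?_ ?_
  · have e1 : (W ∪ T)ᶜ ∪ T \ W = Wᶜ := by
      ext x
      simp only [mem_union, mem_compl, mem_sdiff]
      tauto
    have e2 : (T \ W ∪ {f})ᶜ ∪ T \ W = {f}ᶜ := by
      ext x
      simp only [mem_union, mem_compl, mem_sdiff, mem_singleton]
      constructor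
      · rintro (h | h) rfl
        · exact h (Or.inr rfl)
        · exact h.2 hfW
      · intro h
        by_cases h2 : x ∈ T ∧ x ∉ W
        · exact Or.inr h2
        · exact Or.inl (fun h3 => h3.elim h2 h)
    rw [e1, e2] at h1
    have h2 := xx_anti a b hw hs0 hs (D := Tᶜ) (D' := (T \ W ∪ {f})ᶜ)
      (compl_subset_compl.2 (union_subset sdiff_subset (singleton_subset_iff.2 hfT)))
    have h3 := mul_le_mul_of_nonneg_right h2 (XX_pos a b w s hw hs Wᶜ).le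
    linarith
  · refine compl_subset_compl.2 fun x hx => ?_
    rw [mem_union, mem_sdiff, mem_singleton] at hx
    rcases hx with hx | rfl
    · exact mem_union_right _ hx.1
    · exact mem_union_left _ hfW
  · rw [disjoint_left]
    intro x hx hx'
    exact (mem_compl.1 hx) (mem_union_left _ hx')

theorem dl2f_bot (hw : ∀ e, 0 ≤ w e) (hq0 : 0 < q) (hq1 : q ≤ 1) {W T : Finset V} {f : V}
    (hfW : f ∈ W) (hfT : f ∈ T) :
    ZS a b w q (blk (W ∪ T)) (fun _ => True) * ZS a b w q ⊥ (fun _ => True) ≤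
      ZS a b w q (blk W) (fun _ => True) * ZS a b w q (blk T) (fun _ => True) := by
  obtain ⟨s, rfl⟩ : ∃ s, q = 1 - s := ⟨1 - q, by ring⟩
  have hs0 : 0 ≤ s := by linarith
  have hs1 : s < 1 := by linarith
  rw [← blk_single f, zs_blk a b ⟨f, hfW⟩, zs_blk a b ⟨f, hfT⟩,
    zs_blk a b ⟨f, mem_union_left _ hfW⟩, zs_blk a b ⟨f, mem_singleton_self f⟩]
  have h := xx_f a b hw hs0 hs1 hfW hfT
  have h2 := mul_le_mul_of_nonneg_left h (mul_self_nonneg (1 - s))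
  linarith [h2]

open Classical in
/-- **Upper bound**: `Z^{W ∪ T} Z ≤ Z^W Z^T` for sets with a common vertex. -/
theorem dl2f (hw : ∀ e, 0 ≤ w e) (hq0 : 0 < q) (hq1 : q ≤ 1) (ρ : Setoid V)
    {W T : Finset V} {f : V} (hfW : f ∈ W) (hfT : f ∈ T) :
    ZS a b w q (ρ ⊔ blk (W ∪ T)) (fun _ => True) * ZS a b w q ρ (fun _ => True) ≤
      ZS a b w q (ρ ⊔ blk W) (fun _ => True) * ZS a b w q (ρ ⊔ blk T) (fun _ => True) := by
  have : Fintype (Quotient ρ) := Fintype.ofFinite _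
  have h := dl2f_bot (fun e => Quotient.mk ρ (a e)) (fun e => Quotient.mk ρ (b e)) hw hq0 hq1
    (mem_image_of_mem (Quotient.mk ρ) hfW) (mem_image_of_mem (Quotient.mk ρ) hfT)
  rw [← image_union, zs_mk a b ρ (mk_blk a b ρ W) fun _ => Iff.rfl,
    zs_mk a b ρ (mk_blk a b ρ T) fun _ => Iff.rfl,
    zs_mk a b ρ (mk_blk a b ρ (W ∪ T)) fun _ => Iff.rfl,
    zs_mk a b ρ (σ := ρ) (fun ω x y => by rw [sup_bot_eq]; exact conf_mk a b ρ ω x y)
      fun _ => Iff.rfl] at h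
  exact h

/-- `T1` for an edge at a vertex of `T`. -/
theorem t1_edge (hw : ∀ e, 0 ≤ w e) (hq0 : 0 < q) (hq1 : q ≤ 1) (ρ : Setoid V) {T : Finset V}
    {x u v : V} (hx : x ∈ T) (hu : ρ x u) :
    ZS a b w q (ρ ⊔ join u v ⊔ blk T) (fun _ => True) * ZS a b w q ρ (fun _ => True) ≤
      ZS a b w q (ρ ⊔ blk T) (fun _ => True) * ZS a b w q (ρ ⊔ join u v) (fun _ => True) := by
  have h := dl2f a b hw hq0 hq1 ρ hx (mem_insert_self x {v})
  rw [blk_union hx (mem_insert_self x {v}), blk_pair, sup_join_congr hu] at h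
  have e : ρ ⊔ (blk T ⊔ join x v) = ρ ⊔ join u v ⊔ blk T := by
    rw [← sup_join_congr hu, sup_comm (blk T), sup_assoc]
  rw [e] at h
  exact h

/-! ### Deletion and contraction -/

theorem wO_nonneg (hw : ∀ e, 0 ≤ w e) (E0 : Finset E) (e : E) : 0 ≤ wO w E0 e := by
  rw [wO]
  split_ifs
  · exact le_rfl
  · exact hw e

theorem zs_rec (ρ : Setoid V) (e : E) (A : Finset E → Prop) :
    ZS a b w q ρ A = ZS a b (wO w {e}) q ρ A +
      w e * ZS a b (wO w {e}) q (ρ ⊔ join (a e) (b e)) (fun ω => A (insert e ω)) := by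
  classical
  have h0 := zs_cond a b (w := w) (q := q) ρ (E0 := {e}) (S := ∅) (empty_subset _) A
  have h1 := zs_cond a b (w := w) (q := q) ρ (E0 := {e}) (S := {e}) subset_rfl A
  rw [prod_empty, one_mul] at h0
  rw [prod_singleton] at h1
  have e0 : conf a b (∅ : Finset E) = ⊥ := by rw [conf, sup_empty]
  have e1 : conf a b ({e} : Finset E) = join (a e) (b e) := by rw [conf, sup_singleton]
  have e2 : (fun ω => A (∅ ∪ ω)) = A := by
    funext ω
    rw [empty_union]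
  have e3 : (fun ω => A ({e} ∪ ω)) = fun ω => A (insert e ω) := by
    funext ω
    rw [← insert_eq]
  rw [e0, sup_bot_eq, e2] at h0
  rw [e1, e3] at h1
  rw [← h0, ← h1]
  obtain ⟨P0, hP0⟩ : ∃ P : Finset E → Prop, ∀ ω, P ω ↔ (ω ∩ {e} = ∅ ∧ A ω) := ⟨_, fun _ => Iff.rfl⟩
  obtain ⟨P1, hP1⟩ : ∃ P : Finset E → Prop, ∀ ω, P ω ↔ (ω ∩ {e} = {e} ∧ A ω) :=
    ⟨_, fun _ => Iff.rfl⟩
  rw [← ZS_congr a b hP0, ← ZS_congr a b hP1, ZS, ZS, ZS, ← sum_union]
  · refine sum_congr ?_ fun _ _ => rfl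
    ext ω
    rw [mem_union, mem_filter, mem_filter, mem_filter, hP0, hP1]
    by_cases he : e ∈ ω
    · have h3 : ω ∩ {e} = {e} := inter_eq_right.2 (singleton_subset_iff.2 he)
      rw [h3]
      simp
    · have h3 : ω ∩ {e} = ∅ := disjoint_iff_inter_eq_empty.1 (disjoint_singleton_right.2 he)
      rw [h3]
      have h4 : (∅ : Finset E) ≠ {e} := (singleton_ne_empty e).symm
      simp [h4]
  · rw [disjoint_left]
    intro ω h h'
    rw [mem_filter, hP0] at h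
    rw [mem_filter, hP1] at h'
    rw [h.2.1] at h'
    exact (singleton_ne_empty e).symm h'.2.1

theorem zs_pow {ρ1 ρ2 : Setoid V} {k : ℕ} (A : Finset E → Prop)
    (h : ∀ ω : Finset E, (∀ e ∈ ω, w e ≠ 0) →
      (classes (conf a b ω ⊔ ρ1)).card = (classes (conf a b ω ⊔ ρ2)).card + k) :
    ZS a b w q ρ1 A = q ^ k * ZS a b w q ρ2 A := by
  classical
  rw [ZS, ZS, mul_sum]
  refine sum_congr rfl fun ω _ => ?_
  by_cases h0 : ∏ e ∈ ω, w e = 0
  · rw [h0]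
    ring
  · rw [h ω (fun e he => prod_ne_zero_iff.1 h0 e he), pow_add]
    ring

/-! ### The terminal case -/

theorem card_disj {P ρ : Setoid V} {T : Finset V} (h : ∀ x ∈ T, ∀ y, P x y ↔ ρ x y)
    (W : Finset V) [DecidablePred fun x => Disjoint (cls ρ x) W]
    [DecidablePred fun c : Finset V => Disjoint c W]
    [DecidablePred fun c : Finset V => Disjoint c (W ∪ T)] :
    ((classes P).filter fun c => Disjoint c W).card =
      ((classes P).filter fun c => Disjoint c (W ∪ T)).card +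
        ((T.filter fun x => Disjoint (cls ρ x) W).image (cls ρ)).card := by
  have hc : ∀ x ∈ T, cls P x = cls ρ x := by
    intro x hx
    ext y
    rw [mem_cls, mem_cls, h x hx]
  rw [← card_union_of_disjoint]
  · congr 1
    ext c
    rw [mem_union, mem_filter, mem_filter, mem_image]
    constructor
    · rintro ⟨h1, h2⟩
      by_cases h3 : Disjoint c T
      · exact Or.inl ⟨h1, disjoint_union_right.2 ⟨h2, h3⟩⟩
      · obtain ⟨x, hx, hxT⟩ := not_disjoint_iff.1 h3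
        obtain ⟨y, rfl⟩ := mem_classes.1 h1
        have h4 : cls P y = cls ρ x := by
          rw [← hc x hxT, cls_eq_iff]
          exact mem_cls.1 hx
        refine Or.inr ⟨x, mem_filter.2 ⟨hxT, ?_⟩, h4.symm⟩
        rw [← h4]
        exact h2
    · rintro (⟨h1, h2⟩ | ⟨x, hx, rfl⟩)
      · exact ⟨h1, (disjoint_union_right.1 h2).1⟩
      · rw [mem_filter] at hx
        refine ⟨?_, hx.2⟩
        rw [← hc x hx.1]
        exact cls_mem P x
  · rw [disjoint_left]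
    intro c h1 h2
    rw [mem_filter] at h1
    rw [mem_image] at h2
    obtain ⟨x, hx, rfl⟩ := h2
    rw [mem_filter] at hx
    exact disjoint_left.1 (disjoint_union_right.1 h1.2).2 (self_mem_cls ρ x) hx.1

theorem conf_off {ρ : Setoid V} {T : Finset V} {ω : Finset E}
    (h : ∀ e ∈ ω, ∀ x ∈ T, ¬ ρ x (a e) ∧ ¬ ρ x (b e)) :
    ∀ x ∈ T, ∀ y, (conf a b ω ⊔ ρ) x y ↔ ρ x y := by
  intro x hx y
  constructor
  · intro hxy
    let R : Setoid V := ⟨fun u v => ρ u v ∨ ((∀ t ∈ T, ¬ ρ t u) ∧ ∀ t ∈ T, ¬ ρ t v), by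
      refine ⟨fun u => Or.inl (Setoid.refl' _ _), ?_, ?_⟩
      · rintro u v (k | k)
        · exact Or.inl (Setoid.symm' _ k)
        · exact Or.inr ⟨k.2, k.1⟩
      · rintro u v z (k | k) (k' | k')
        · exact Or.inl (Setoid.trans' _ k k')
        · exact Or.inr ⟨fun t ht h1 => k'.1 t ht (Setoid.trans' _ h1 k), k'.2⟩
        · exact Or.inr ⟨k.1, fun t ht h1 => k.2 t ht (Setoid.trans' _ h1 (Setoid.symm' _ k'))⟩
        · exact Or.inr ⟨k.1, k'.2⟩⟩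
    have hle : conf a b ω ⊔ ρ ≤ R := by
      refine sup_le ((conf_le_iff a b).2 fun e he => ?_) fun u v k => Or.inl k
      exact Or.inr ⟨fun t ht => (h e he t ht).1, fun t ht => (h e he t ht).2⟩
    rcases hle hxy with k | ⟨k, -⟩
    · exact k
    · exact absurd (Setoid.refl' _ x) (k x hx)
  · intro hxy
    exact (le_sup_right : ρ ≤ conf a b ω ⊔ ρ) hxy

/-! ### The main inequality -/

theorem arith {x0 x1 b0 b1 c0 c1 d0 d1 t : ℝ} (ht : 0 ≤ t) (hb0 : 0 < b0) (hb1 : 0 < b1)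
    (h0 : x0 * b0 ≤ c0 * d0) (h1 : x1 * b1 ≤ c1 * d1) (h2 : b1 * d0 ≤ b0 * d1)
    (h3 : c1 * b0 ≤ c0 * b1) :
    (x0 + t * x1) * (b0 + t * b1) ≤ (c0 + t * c1) * (d0 + t * d1) := by
  have k1 : x0 * b1 + x1 * b0 ≤ c0 * d1 + c1 * d0 := by
    refine le_of_mul_le_mul_right ?_ (mul_pos hb0 hb1)
    have e1 := mul_le_mul_of_nonneg_right h0 (mul_pos hb1 hb1).le
    have e2 := mul_le_mul_of_nonneg_right h1 (mul_pos hb0 hb0).le
    have e3 := mul_nonneg (sub_nonneg.2 h3) (sub_nonneg.2 h2)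
    nlinarith [e1, e2, e3]
  have k2 := mul_le_mul_of_nonneg_left k1 ht
  have k3 := mul_le_mul_of_nonneg_left h1 (mul_nonneg ht ht)
  nlinarith [k2, k3, h0]

theorem zs_le_true (hw : ∀ e, 0 ≤ w e) (hq0 : 0 < q) (ρ : Setoid V) (A : Finset E → Prop) :
    ZS a b w q ρ A ≤ ZS a b w q ρ (fun _ => True) := by
  classical
  obtain ⟨B, hB⟩ : ∃ B : Finset E → Prop, ∀ ω, B ω ↔ True := ⟨fun _ => True, fun _ => Iff.rfl⟩
  rw [← ZS_congr a b hB, ZS, ZS]
  refine sum_le_sum_of_subset_of_nonneg ?_ fun ω _ _ =>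
    mul_nonneg (prod_nonneg fun e _ => hw e) (pow_nonneg hq0.le _)
  intro ω hω
  rw [mem_filter] at hω ⊢
  exact ⟨hω.1, (hB ω).2 trivial⟩

theorem zs_zero_of {ρ : Setoid V} {A : Finset E → Prop}
    (h : ∀ ω : Finset E, (∀ e ∈ ω, w e ≠ 0) → ¬ A ω) : ZS a b w q ρ A = 0 := by
  classical
  rw [ZS]
  refine sum_eq_zero fun ω hω => ?_
  rw [mem_filter] at hω
  by_contra hne
  exact h ω (fun e he h1 => hne (by rw [prod_eq_zero he h1, zero_mul])) hω.2

theorem terminal (hw : ∀ e, 0 ≤ w e) (hq0 : 0 < q) {W T : Finset V} {f : V}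
    (hfW : f ∈ W) (hfT : f ∈ T) (ρ : Setoid V)
    (h : ∀ e, w e ≠ 0 → ∀ x ∈ T, ¬ ρ x (a e) ∧ ¬ ρ x (b e)) :
    ZS a b w q (ρ ⊔ blk W)
        (fun ω => ∀ x ∈ T, ∀ y ∈ W, (conf a b ω ⊔ ρ) x y → (conf a b ω ⊔ ρ) x f) *
        ZS a b w q (ρ ⊔ blk T) (fun _ => True) ≤
      ZS a b w q (ρ ⊔ blk (W ∪ T)) (fun _ => True) * ZS a b w q ρ (fun _ => True) := by
  classical
  have hW : W ≠ ∅ := ne_empty_of_mem hfW
  have hT : T ≠ ∅ := ne_empty_of_mem hfT
  have hWT : W ∪ T ≠ ∅ := ne_empty_of_mem (mem_union_left _ hfW)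
  have hoff : ∀ ω : Finset E, (∀ e ∈ ω, w e ≠ 0) →
      ∀ x ∈ T, ∀ y, (conf a b ω ⊔ ρ) x y ↔ ρ x y := fun ω hω =>
    conf_off a b fun e he => h e (hω e he)
  by_cases hN : ∀ x ∈ T, ∀ y ∈ W, ρ x y → ρ x f
  · set t1 := ((T.filter fun x => Disjoint (cls ρ x) W).image (cls ρ)).card with ht1
    have hcount : (T.image (cls ρ)).card = t1 + 1 := by
      have e1 : T.image (cls ρ) =
          insert (cls ρ f) ((T.filter fun x => Disjoint (cls ρ x) W).image (cls ρ)) := by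
        ext c
        rw [mem_insert, mem_image, mem_image]
        constructor
        · rintro ⟨x, hx, rfl⟩
          by_cases hd : Disjoint (cls ρ x) W
          · exact Or.inr ⟨x, mem_filter.2 ⟨hx, hd⟩, rfl⟩
          · obtain ⟨y, hy, hyW⟩ := not_disjoint_iff.1 hd
            exact Or.inl (cls_eq_iff.2 (hN x hx y hyW (mem_cls.1 hy)))
        · rintro (rfl | ⟨x, hx, rfl⟩)
          · exact ⟨f, hfT, rfl⟩
          · exact ⟨x, (mem_filter.1 hx).1, rfl⟩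
      rw [e1, card_insert_of_notMem]
      rintro hm
      obtain ⟨x, hx, hxf⟩ := mem_image.1 hm
      refine disjoint_left.1 (mem_filter.1 hx).2 ?_ hfW
      rw [hxf]
      exact self_mem_cls ρ f
    have h1 : ZS a b w q (ρ ⊔ blk W) (fun _ => True) =
        q ^ t1 * ZS a b w q (ρ ⊔ blk (W ∪ T)) (fun _ => True) := by
      refine zs_pow a b _ fun ω hω => ?_
      rw [← sup_assoc, ← sup_assoc, card_classes_blk, card_classes_blk, if_neg hW, if_neg hWT,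
        card_disj (hoff ω hω) W]
      omega
    have h2 : ZS a b w q ρ (fun _ => True) =
        q ^ t1 * ZS a b w q (ρ ⊔ blk T) (fun _ => True) := by
      refine zs_pow a b _ fun ω hω => ?_
      rw [← sup_assoc, card_classes_blk, if_neg hT]
      have h3 := card_disj (hoff ω hω) ∅
      have e2 : (classes (conf a b ω ⊔ ρ)).filter (fun c => Disjoint c (∅ : Finset V)) =
          classes (conf a b ω ⊔ ρ) := filter_true_of_mem fun c _ => disjoint_empty_right c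
      have e3 : T.filter (fun x => Disjoint (cls ρ x) (∅ : Finset V)) = T :=
        filter_true_of_mem fun c _ => disjoint_empty_right _
      simp only [empty_union] at h3
      rw [e2, e3, hcount] at h3
      omega
    rw [h2]
    have h4 : ZS a b w q (ρ ⊔ blk W)
        (fun ω => ∀ x ∈ T, ∀ y ∈ W, (conf a b ω ⊔ ρ) x y → (conf a b ω ⊔ ρ) x f) ≤
        ZS a b w q (ρ ⊔ blk W) (fun _ => True) := zs_le_true a b hw hq0 _ _
    have h5 := mul_le_mul_of_nonneg_right h4 (ZS_pos a b hw hq0 (ρ ⊔ blk T)).le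
    rw [h1] at h5
    linarith [h5]
  · have h0 : ZS a b w q (ρ ⊔ blk W)
        (fun ω => ∀ x ∈ T, ∀ y ∈ W, (conf a b ω ⊔ ρ) x y → (conf a b ω ⊔ ρ) x f) = 0 := by
      refine zs_zero_of a b fun ω hω' hA => hN fun x hx y hy hxy => ?_
      rw [← hoff ω hω' x hx]
      exact hA x hx y hy ((hoff ω hω' x hx y).2 hxy)
    rw [h0, zero_mul]
    exact mul_nonneg (ZS_pos a b hw hq0 _).le (ZS_pos a b hw hq0 _).le

theorem dl1f_aux (hq0 : 0 < q) (hq1 : q ≤ 1) {W T : Finset V} {f : V} (hfW : f ∈ W)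
    (hfT : f ∈ T) : ∀ (n : ℕ) (w : E → ℝ) (ρ : Setoid V), (∀ e, 0 ≤ w e) →
    (∃ L : Finset E, (∀ e, w e ≠ 0 → e ∈ L) ∧ L.card = n) →
    ZS a b w q (ρ ⊔ blk W)
        (fun ω => ∀ x ∈ T, ∀ y ∈ W, (conf a b ω ⊔ ρ) x y → (conf a b ω ⊔ ρ) x f) *
        ZS a b w q (ρ ⊔ blk T) (fun _ => True) ≤
      ZS a b w q (ρ ⊔ blk (W ∪ T)) (fun _ => True) * ZS a b w q ρ (fun _ => True) := by
  intro n
  induction n with
  | zero =>
    rintro w ρ hw ⟨L, hL, hn⟩
    refine terminal a b hw hq0 hfW hfT ρ fun e he => ?_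
    have := hL e he
    rw [card_eq_zero.1 hn] at this
    exact absurd this (notMem_empty e)
  | succ n ih =>
    rintro w ρ hw ⟨L, hL, hn⟩
    by_cases hterm : ∀ e, w e ≠ 0 → ∀ x ∈ T, ¬ ρ x (a e) ∧ ¬ ρ x (b e)
    · exact terminal a b hw hq0 hfW hfT ρ hterm
    push Not at hterm
    obtain ⟨e, he, x, hx, hxe⟩ := hterm
    have hxe' : ρ x (a e) ∨ ρ x (b e) := by
      by_cases h : ρ x (a e)
      · exact Or.inl h
      · exact Or.inr (hxe h)
    -- the two ends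
    obtain ⟨u, v, hj, hu⟩ : ∃ u v, join (a e) (b e) = join u v ∧ ρ x u := by
      rcases hxe' with h | h
      · exact ⟨a e, b e, rfl, h⟩
      · exact ⟨b e, a e, join_comm _ _, h⟩
    have hw' := wO_nonneg hw {e}
    have hL' : ∃ L : Finset E, (∀ e', wO w {e} e' ≠ 0 → e' ∈ L) ∧ L.card = n := by
      refine ⟨L.erase e, fun e' he' => ?_, ?_⟩
      · rw [wO] at he'
        split_ifs at he' with h1
        · exact absurd rfl he'
        · rw [mem_singleton] at h1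
          exact mem_erase.2 ⟨h1, hL e' he'⟩
      · rw [card_erase_of_mem (hL e he)]
        omega
    have hev : ∀ (σ : Setoid V), ZS a b (wO w {e}) q σ (fun ω => ∀ x ∈ T, ∀ y ∈ W,
        (conf a b (insert e ω) ⊔ ρ) x y → (conf a b (insert e ω) ⊔ ρ) x f) =
        ZS a b (wO w {e}) q σ (fun ω => ∀ x ∈ T, ∀ y ∈ W,
          (conf a b ω ⊔ (ρ ⊔ join u v)) x y → (conf a b ω ⊔ (ρ ⊔ join u v)) x f) := by
      intro σ
      refine ZS_congr a b fun ω => ?_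
      have e1 : conf a b (insert e ω) ⊔ ρ = conf a b ω ⊔ (ρ ⊔ join u v) := by
        rw [conf_insert, hj, sup_comm (join u v), sup_assoc, sup_comm (join u v)]
      rw [e1]
    have r1 := zs_rec a b (w := w) (q := q) (ρ ⊔ blk W) e
      (fun ω => ∀ x ∈ T, ∀ y ∈ W, (conf a b ω ⊔ ρ) x y → (conf a b ω ⊔ ρ) x f)
    have r2 := zs_rec a b (w := w) (q := q) (ρ ⊔ blk T) e (fun _ => True)
    have r3 := zs_rec a b (w := w) (q := q) (ρ ⊔ blk (W ∪ T)) e (fun _ => True)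
    have r4 := zs_rec a b (w := w) (q := q) ρ e (fun _ => True)
    beta_reduce at r1
    rw [hev, hj, sup_right_comm] at r1
    rw [hj, sup_right_comm] at r2 r3
    rw [hj] at r4
    rw [r1, r2, r3, r4]
    refine arith (hw e) (ZS_pos a b hw' hq0 _) (ZS_pos a b hw' hq0 _) (ih _ ρ hw' hL')
      (ih _ (ρ ⊔ join u v) hw' hL') (t1_edge a b hw' hq0 hq1 ρ hx hu) ?_
    have h2 := t1_edge a b hw' hq0 hq1 (ρ ⊔ blk T) (T := W ∪ T) (v := v) (mem_union_right _ hx)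
      ((le_sup_left : ρ ≤ ρ ⊔ blk T) hu)
    have e2 : ρ ⊔ blk T ⊔ join u v ⊔ blk (W ∪ T) = ρ ⊔ join u v ⊔ blk (W ∪ T) := by
      rw [sup_right_comm ρ, sup_assoc (ρ ⊔ join u v), sup_eq_right.2 (blk_mono subset_union_right)]
    have e3 : ρ ⊔ blk T ⊔ blk (W ∪ T) = ρ ⊔ blk (W ∪ T) := by
      rw [sup_assoc, sup_eq_right.2 (blk_mono subset_union_right)]
    have e4 : ρ ⊔ blk T ⊔ join u v = ρ ⊔ join u v ⊔ blk T := sup_right_comm _ _ _
    rw [e2, e3, e4] at h2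
    exact h2

/-- **Lower bound**: `N` = no cluster joins `T` and `W` off `f`; `Z^W(N) Z^T ≤ Z^{W ∪ T} Z`. -/
theorem dl1f (hw : ∀ e, 0 ≤ w e) (hq0 : 0 < q) (hq1 : q ≤ 1) (ρ : Setoid V) {W T : Finset V}
    {f : V} (hfW : f ∈ W) (hfT : f ∈ T) :
    ZS a b w q (ρ ⊔ blk W)
        (fun ω => ∀ x ∈ T, ∀ y ∈ W, (conf a b ω ⊔ ρ) x y → (conf a b ω ⊔ ρ) x f) *
        ZS a b w q (ρ ⊔ blk T) (fun _ => True) ≤
      ZS a b w q (ρ ⊔ blk (W ∪ T)) (fun _ => True) * ZS a b w q ρ (fun _ => True) :=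
  dl1f_aux a b hq0 hq1 hfW hfT _ w ρ hw ⟨univ, fun _ _ => mem_univ _, rfl⟩

/-! ### The states of the inner box -/

/-- **Ratio of the laws of the inner edges.** -/
theorem star_f (hw : ∀ e, 0 ≤ w e) (hq0 : 0 < q) (hq1 : q ≤ 1) (ρ : Setoid V) {W T : Finset V}
    {f : V} (hfW : f ∈ W) (hfT : f ∈ T) {E0 S S' : Finset E}
    (hE : ∀ e ∈ E0, a e ∈ T ∧ b e ∈ T) (hS : S ⊆ E0) (hS' : S' ⊆ E0) :
    ZS a b w q (ρ ⊔ blk W) (fun ω => ω ∩ E0 = S ∧
        ∀ x ∈ T, ∀ y ∈ W, (conf a b ω ⊔ ρ) x y → (conf a b ω ⊔ ρ) x f) *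
        ZS a b w q ρ (fun ω => ω ∩ E0 = S') ≤
      ZS a b w q ρ (fun ω => ω ∩ E0 = S) * ZS a b w q (ρ ⊔ blk W) (fun ω => ω ∩ E0 = S') := by
  have hw' := wO_nonneg hw E0
  have hA : ∀ ω : Finset E, (∀ x ∈ T, ∀ y ∈ W, (conf a b (S ∪ ω) ⊔ ρ) x y →
      (conf a b (S ∪ ω) ⊔ ρ) x f) ↔
      ∀ x ∈ T, ∀ y ∈ W, (conf a b ω ⊔ (ρ ⊔ conf a b S)) x y →
        (conf a b ω ⊔ (ρ ⊔ conf a b S)) x f := by
    intro ω
    rw [conf_union, sup_assoc, sup_comm (conf a b S)]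
  rw [zs_cond a b (ρ ⊔ blk W) hS, zs_cond_true a b ρ hS, zs_cond_true a b ρ hS',
    zs_cond_true a b (ρ ⊔ blk W) hS', ZS_congr a b hA]
  have e1 : ∀ S, (ρ ⊔ blk W) ⊔ conf a b S = (ρ ⊔ conf a b S) ⊔ blk W := fun S => sup_right_comm _ _ _
  have e2 : ∀ S ⊆ E0, (ρ ⊔ conf a b S) ⊔ blk T = ρ ⊔ blk T := fun S hS => by
    rw [sup_assoc, sup_eq_right.2 (conf_le_blk a b hS hE)]
  have e3 : ∀ S ⊆ E0, (ρ ⊔ conf a b S) ⊔ blk (W ∪ T) = ρ ⊔ blk (W ∪ T) := fun S hS => by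
    rw [sup_assoc, sup_eq_right.2 ((conf_le_blk a b hS hE).trans (blk_mono subset_union_right))]
  have k1 := dl1f a b hw' hq0 hq1 (ρ ⊔ conf a b S) hfW hfT
  have k2 := dl2f a b hw' hq0 hq1 (ρ ⊔ conf a b S') hfW hfT
  rw [e2 S hS, e3 S hS, ← e1] at k1
  rw [e2 S' hS', e3 S' hS', ← e1] at k2
  have p1 := ZS_pos a b hw' hq0 (ρ ⊔ blk T)
  have p2 := ZS_pos a b hw' hq0 (ρ ⊔ blk (W ∪ T))
  have p3 := ZS_pos a b hw' hq0 (ρ ⊔ conf a b S)
  have p4 := ZS_pos a b hw' hq0 (ρ ⊔ conf a b S')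
  set M := ZS a b (wO w E0) q (ρ ⊔ blk W ⊔ conf a b S)
    (fun ω => ∀ x ∈ T, ∀ y ∈ W, (conf a b ω ⊔ (ρ ⊔ conf a b S)) x y →
        (conf a b ω ⊔ (ρ ⊔ conf a b S)) x f)
  set Y0 := ZS a b (wO w E0) q (ρ ⊔ blk T) (fun _ => True)
  set Y1 := ZS a b (wO w E0) q (ρ ⊔ blk (W ∪ T)) (fun _ => True)
  set z := ZS a b (wO w E0) q (ρ ⊔ conf a b S) (fun _ => True)
  set z' := ZS a b (wO w E0) q (ρ ⊔ conf a b S') (fun _ => True)
  set W' := ZS a b (wO w E0) q (ρ ⊔ blk W ⊔ conf a b S') (fun _ => True)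
  have h0 : 0 ≤ ∏ e ∈ S, w e := prod_nonneg fun e _ => hw e
  have h0' : 0 ≤ ∏ e ∈ S', w e := prod_nonneg fun e _ => hw e
  -- `M Y0 ≤ Y1 z`, `Y1 z' ≤ W' Y0`
  have k3 : M * z' ≤ z * W' := by
    have k4 : (M * Y0) * z' ≤ (z * W') * Y0 := by
      calc (M * Y0) * z' ≤ (Y1 * z) * z' := mul_le_mul_of_nonneg_right k1 p4.le
        _ = (Y1 * z') * z := by ring
        _ ≤ (W' * Y0) * z := mul_le_mul_of_nonneg_right k2 p3.le
        _ = _ := by ring
    refine le_of_mul_le_mul_right ?_ p1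
    linarith
  have k5 := mul_le_mul_of_nonneg_left k3 (mul_nonneg h0 h0')
  linarith

end Vale.Agent.P167.H587
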