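import Vale.Agent.P167.H635.Bil
import Vale.Agent.P167.H587.Flat

/-!
# Comparison of two boundary conditions near a wired side, `q ≤ 1`

`bil_f`: `E^{ξ'}[F; N] E^ξ[G] ≤ E^ξ[F] E^{ξ'}[G]` for nonnegative functions `F`, `G` of the squares of
`V`, where `ξ'` arises from `ξ` by the wiring of one block which contains the site `f` and `N` is the
event that no cluster joins `V` to this block off the site `f` (`f` represents a wired side).
-/

namespace Vale.Agent.P167.H587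

open Finset Vale.Agent.P167.H623 Vale.Agent.P167.H661 Vale.Agent.P167.H635 Vale.Agent.P167.FK
  Vale.Agent.P167.FKA
open Vale.Agent.P145.FB (PStep PConn)
open Vale.Agent.P167.H259 (PC_mono cf_insert flip_cf cf_mono)
open Vale.Agent.P167.H519 (pa_cor pb_cor pa_even pb_even pc_of_cor cf_in Sx Jn ind_le_of_imp)

set_option linter.unusedSectionVars false

section sums

variable {V E : Type*} [Fintype V] [DecidableEq V] [Fintype E] [DecidableEq E]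
  (a b : E → V) {w : E → ℝ} {q : ℝ}

/-- The bilinear inequality on the graph. -/
theorem bil_graph_f (hw : ∀ e, 0 ≤ w e) (hq0 : 0 < q) (hq1 : q ≤ 1) (ρ : Setoid V)
    {W T : Finset V} {f0 : V} (hfW : f0 ∈ W) (hfT : f0 ∈ T) {E0 : Finset E}
    (hE : ∀ e ∈ E0, a e ∈ T ∧ b e ∈ T)
    {f g k : Finset E → ℝ} (hf : ∀ S, 0 ≤ f S) (hg : ∀ S, 0 ≤ g S)
    (hk1 : ∀ ω, k ω ≤ 1)
    (hk2 : ∀ ω, (∃ x ∈ T, ∃ y ∈ W, (conf a b ω ⊔ ρ) x y ∧ ¬ (conf a b ω ⊔ ρ) x f0) → k ω ≤ 0) :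
    ZF a b w q (ρ ⊔ blk W) (fun ω => f (ω ∩ E0) * k ω) * ZF a b w q ρ (fun ω => g (ω ∩ E0)) ≤
      ZF a b w q ρ (fun ω => f (ω ∩ E0)) * ZF a b w q (ρ ⊔ blk W) (fun ω => g (ω ∩ E0)) := by
  classical
  obtain ⟨M, hM⟩ : ∃ M : Finset E → Prop, ∀ ω, M ω ↔ ∀ x ∈ T, ∀ y ∈ W,
      (conf a b ω ⊔ ρ) x y → (conf a b ω ⊔ ρ) x f0 := ⟨_, fun _ => Iff.rfl⟩
  have h0 : ZF a b w q (ρ ⊔ blk W) (fun ω => f (ω ∩ E0) * k ω) ≤
      ZF a b w q (ρ ⊔ blk W) (fun ω => f (ω ∩ E0) * (if M ω then 1 else 0)) := by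
    refine ZF_mono a b hw hq0.le _ fun ω => mul_le_mul_of_nonneg_left ?_ (hf _)
    split_ifs with h
    · exact hk1 ω
    · refine hk2 ω ?_
      rw [hM] at h
      push Not at h
      exact h
  have e1 : ∀ (σ : Setoid V) (h : Finset E → ℝ), ZF a b w q σ (fun ω => h (ω ∩ E0)) =
      ∑ S ∈ E0.powerset, h S * ZS a b w q σ (fun ω => ω ∩ E0 = S) := by
    intro σ h
    have h2 := ZF_split a b (w := w) (q := q) σ E0 h (fun _ => True)
    simp only [if_true, mul_one, and_true] at h2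
    exact h2
  have hg0 : 0 ≤ ZF a b w q ρ (fun ω => g (ω ∩ E0)) :=
    sum_nonneg fun ω _ => mul_nonneg (mul_nonneg (prod_nonneg fun e _ => hw e)
      (pow_nonneg hq0.le _)) (hg _)
  refine (mul_le_mul_of_nonneg_right h0 hg0).trans ?_
  rw [ZF_split, e1, e1, e1, sum_mul_sum, sum_mul_sum]
  refine sum_le_sum fun S hS => sum_le_sum fun S' hS' => ?_
  rw [mem_powerset] at hS hS'
  have h3 := star_f a b hw hq0 hq1 ρ hfW hfT hE hS hS'
  rw [← ZS_congr a b (fun ω => and_congr (Iff.refl (ω ∩ E0 = S)) (hM ω))] at h3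
  have h4 := mul_le_mul_of_nonneg_left h3 (mul_nonneg (hf S) (hg S'))
  calc _ = f S * g S' * (ZS a b w q (ρ ⊔ blk W) (fun ω => ω ∩ E0 = S ∧ M ω) *
          ZS a b w q ρ (fun ω => ω ∩ E0 = S')) := by ring
    _ ≤ _ := h4
    _ = _ := by ring

end sums

/-! ### The loop model -/

variable {Q : ℝ} {A V : Finset (ℤ × ℤ)} {ξ ξ1 : Cfg}

/-- **The bilinear inequality**, for the connections of `V` with the sites of `𝓦` off the site `f`. -/
theorem bil_f (hQ0 : 0 < Q) (hQ1 : Q ≤ 1) (hVA : V ⊆ A) (hξ : Good ξ) (hξ1 : Good ξ1)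
    {𝓦 : Set (ℤ × ℤ)} (h : Wi A ξ ξ1 𝓦) {f : ℤ × ℤ} (hf : f ∈ corn A)
    (hfW : ∃ z ∈ 𝓦, PC (cf A ξ ∅) f z) {J : Set Cfg}
    (hJ : ∀ S ⊆ A, ∀ x ∈ corn V, ∀ z ∈ 𝓦, PC (cf A ξ S) x z → ¬ PC (cf A ξ S) x f → cf A ξ1 S ∈ J)
    {F G : Cfg → ℝ} (hF0 : ∀ ω, 0 ≤ F ω)
    (hG0 : ∀ ω, 0 ≤ G ω) (hF : Loc V F) (hG : Loc V G) :
    Ex Q A ξ1 (fun ω => F ω * (1 - J.indicator 1 ω)) * Ex Q A ξ G ≤
      Ex Q A ξ F * Ex Q A ξ1 G := by
  classical
  set w : {v // v ∈ A} → ℝ := fun _ => Q with hw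
  have hw0 : ∀ e, 0 ≤ w e := fun _ => hQ0.le
  have hq0 : 0 < Q ^ 2 := pow_pos hQ0 2
  have hq1 : Q ^ 2 ≤ 1 := pow_le_one₀ hQ0.le hQ1
  have z0 := ZS_pos (ea A) (eb A) hw0 hq0 (rho A ξ)
  have z1 := ZS_pos (ea A) (eb A) hw0 hq0 (rho A ξ1)
  have ind1 : ∀ ω, (1 : ℝ) - J.indicator 1 ω ≤ 1 := fun ω => by
    have := ind_nonneg J ω
    linarith
  -- local functions do not see the outside
  have hloc : ∀ {F : Cfg → ℝ}, Loc V F → ∀ S : Finset {v // v ∈ A},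
      F (cf A ξ1 (up A S)) = F (cf A ξ (up A S)) := by
    intro F hF S
    refine hF _ _ fun v hv => ?_
    rw [cf_in (hVA hv), cf_in (hVA hv)]
  set f0 : {s // s ∈ corn A} := ⟨f, hf⟩ with hf0
  set T : Finset {s // s ∈ corn A} := insert f0 (univ.filter fun s => s.1 ∈ corn V) with hT
  set E0 : Finset {v // v ∈ A} := univ.filter fun e => e.1 ∈ V with hE0
  have hE : ∀ e ∈ E0, ea A e ∈ T ∧ eb A e ∈ T := by
    intro e he
    rw [hE0, mem_filter] at he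
    rw [hT, mem_insert, mem_insert, mem_filter, mem_filter]
    exact ⟨Or.inr ⟨mem_univ _, pa_corn V he.2⟩, Or.inr ⟨mem_univ _, pb_corn V he.2⟩⟩
  have hfT : f0 ∈ T := mem_insert_self _ _
  have hfW' : f0 ∈ blW A ξ 𝓦 := mem_blW.2 hfW
  have hin : ∀ {F : Cfg → ℝ}, Loc V F → ∀ S : Finset {v // v ∈ A},
      F (cf A ξ (up A S)) = F (cf A ξ (up A (S ∩ E0))) := by
    intro F hF S
    refine hF _ _ fun v hv => ?_
    rw [cf_in (hVA hv), cf_in (hVA hv)]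
    congr 1
    rw [mem_up, mem_up, eq_iff_iff]
    constructor
    · rintro ⟨h1, h2⟩
      exact ⟨h1, mem_inter.2 ⟨h2, by rw [hE0, mem_filter]; exact ⟨mem_univ _, hv⟩⟩⟩
    · rintro ⟨h1, h2⟩
      exact ⟨h1, (mem_inter.1 h2).1⟩
  have main := bil_graph_f (ea A) (eb A) hw0 hq0 hq1 (rho A ξ) hfW' hfT hE
    (f := fun S => F (cf A ξ (up A S))) (g := fun S => G (cf A ξ (up A S)))
    (k := fun S => 1 - J.indicator 1 (cf A ξ1 (up A S)))
    (fun _ => hF0 _) (fun _ => hG0 _) (fun _ => ind1 _) (by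
      rintro S ⟨x, hx, y, hy, hxy, hxf⟩
      rw [con_iff] at hxy hxf
      obtain ⟨z, hz, hyz⟩ := mem_blW.1 hy
      have hxV : x.1 ∈ corn V := by
        rw [hT, mem_insert] at hx
        rcases hx with rfl | hx
        · exact absurd (PC_refl _ _) hxf
        · exact (mem_filter.1 hx).2
      have h1 : cf A ξ1 (up A S) ∈ J := hJ _ (up_sub A S) x.1 hxV z hz
        (PC_trans hxy (PC_mono (cf_mono (empty_subset _)) hyz)) hxf
      rw [Set.indicator_of_mem h1]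
      simp)
  rw [← rho_wire h] at main
  -- back to the loop model
  have e1 := ex_zf hQ0 hξ1 (A := A) (fun ω => F ω * (1 - J.indicator 1 ω))
  have e2 := ex_zf hQ0 hξ G (A := A)
  have e3 := ex_zf hQ0 hξ F (A := A)
  have e4 := ex_zf hQ0 hξ1 G (A := A)
  have c1 : (fun S : Finset {v // v ∈ A} => F (cf A ξ1 (up A S)) *
      (1 - J.indicator 1 (cf A ξ1 (up A S)))) =
      fun S => F (cf A ξ (up A (S ∩ E0))) *
        (1 - J.indicator 1 (cf A ξ1 (up A S))) :=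
    funext fun S => by rw [hloc hF, hin hF]
  have c2 : (fun S : Finset {v // v ∈ A} => G (cf A ξ (up A S))) =
      fun S => G (cf A ξ (up A (S ∩ E0))) := funext fun S => hin hG S
  have c3 : (fun S : Finset {v // v ∈ A} => F (cf A ξ (up A S))) =
      fun S => F (cf A ξ (up A (S ∩ E0))) := funext fun S => hin hF S
  have c4 : (fun S : Finset {v // v ∈ A} => G (cf A ξ1 (up A S))) =
      fun S => G (cf A ξ (up A (S ∩ E0))) := funext fun S => by rw [hloc hG, hin hG]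
  rw [c1] at e1
  rw [c2] at e2
  rw [c3] at e3
  rw [c4] at e4
  rw [← e1, ← e2, ← e3, ← e4] at main
  have hzz := mul_pos z0 z1
  refine le_of_mul_le_mul_right ?_ hzz
  linarith [main]

/-- **Two-sided comparison** from a bound of the event `J` relative to the inner state. -/
theorem two_f (hQ0 : 0 < Q) (hQ1 : Q ≤ 1) (hVA : V ⊆ A) (hξ : Good ξ) (hξ1 : Good ξ1)
    {𝓦 : Set (ℤ × ℤ)} (h : Wi A ξ ξ1 𝓦) {f : ℤ × ℤ} (hf : f ∈ corn A)
    (hfW : ∃ z ∈ 𝓦, PC (cf A ξ ∅) f z) {J : Set Cfg}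
    (hJ : ∀ S ⊆ A, ∀ x ∈ corn V, ∀ z ∈ 𝓦, PC (cf A ξ S) x z → ¬ PC (cf A ξ S) x f → cf A ξ1 S ∈ J)
    {δ : ℝ}
    (hδ : ∀ F : Cfg → ℝ, (∀ ω, 0 ≤ F ω) → Loc V F →
      Ex Q A ξ1 (fun ω => F ω * J.indicator 1 ω) ≤ δ * Ex Q A ξ1 F)
    {F : Cfg → ℝ} (hF0 : ∀ ω, 0 ≤ F ω) (hF : Loc V F) :
    (1 - δ) * Ex Q A ξ1 F ≤ Ex Q A ξ F ∧ (1 - δ) * Ex Q A ξ F ≤ Ex Q A ξ1 F := by
  have hsub : ∀ F : Cfg → ℝ, Ex Q A ξ1 (fun ω => F ω * (1 - J.indicator 1 ω)) =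
      Ex Q A ξ1 F - Ex Q A ξ1 (fun ω => F ω * J.indicator 1 ω) := by
    intro F
    rw [← Ex_sub]
    congr 1
    funext ω
    ring
  have h1 : ∀ ω : Cfg, (0 : ℝ) ≤ (fun _ => (1 : ℝ)) ω := fun _ => zero_le_one
  have l1 : Loc V (fun _ : Cfg => (1 : ℝ)) := fun _ _ _ => rfl
  constructor
  · have k := bil_f hQ0 hQ1 hVA hξ hξ1 h hf hfW hJ hF0 h1 hF l1
    rw [hsub, Ex_const hQ0, Ex_const hQ0, mul_one, mul_one] at k
    have := hδ F hF0 hF
    linarith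
  · have k := bil_f hQ0 hQ1 hVA hξ hξ1 h hf hfW hJ h1 hF0 l1 hF
    rw [hsub, Ex_const hQ0, Ex_const hQ0, one_mul] at k
    have h2 := hδ (fun _ => 1) h1 l1
    rw [Ex_const hQ0, mul_one] at h2
    have h3 : 0 ≤ Ex Q A ξ F := Ex_nonneg hQ0 fun _ _ => hF0 _
    nlinarith

end Vale.Agent.P167.H587
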