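import Vale.Agent.P167.H192.TA.Thr

/-!
# Crossings of a half annulus off its two rays

`meet`: two paths of the same colour, one from the left ray to the right ray, one from the inner to
the outer boundary, are connected. `X3 c b r R`: a crossing of colour `c` which is joined to none of
the two rays. `x3_sub`: it forces one of the three-arm events of the block TWO-ARM, or the mirror
image of one of them.
-/

namespace Vale.Agent.P167.H587

open Vale.Agent.P145.FB Vale.Agent.P153 Vale.Agent.P153.Topo Vale.Agent.P167 Vale.Agent.P167.H871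
  Vale.Agent.P167.H632 Vale.Agent.P167.H192.TA
open Relation

/-- **Paths of the same colour which cross each other in the half annulus are connected.** -/
theorem meet {F : Set Pt} {b : Pt} {r R e : ℤ} (hr : 1 ≤ r)
    {y y' p q : Pt} (hy : y ∈ sr b r R) (hy0 : nm (y - b) ≤ r) (hy1 : R ≤ nm (y' - b))
    (hye : (y.1 + y.2) % 2 = e) (h : Pw (F ∩ dq b r R) y y')
    (hp : p ∈ sr b r R) (hp1 : p.1 ≤ b.1 - r) (hp2 : p.2 = b.2) (hpe : (p.1 + p.2) % 2 = e)
    (hq1 : b.1 + r ≤ q.1) (hq2 : q.2 = b.2)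
    (h' : Pw (F ∩ dq b r R) p q) : Pw (F ∩ dq b r R) p y := by
  obtain ⟨SA, hSA⟩ : ∃ SA : Set Pt, SA = {z | Conn (Sc e F ∩ Zs b r R) (2 * p.1, 2 * p.2) z} :=
    ⟨_, rfl⟩
  obtain ⟨SB, hSB⟩ : ∃ SB : Set Pt, SB = {z | Conn (Sc e F ∩ Zs b r R) (2 * y.1, 2 * y.2) z} :=
    ⟨_, rfl⟩
  have hA : Conn SA (2 * p.1, 2 * p.2) (2 * q.1, 2 * q.2) := by
    rw [hSA]
    exact conn_trans_closed (h'.lift hp hpe)
  have hB : Conn SB (2 * y.1, 2 * y.2) (2 * y'.1, 2 * y'.2) := by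
    rw [hSB]
    exact conn_trans_closed (h.lift hy hye)
  have hSAZ : ∀ z ∈ SA, z ∈ Zs b r R := by
    intro z hz
    rw [hSA] at hz
    exact hz.right_mem.2
  have hSBZ : ∀ z ∈ SB, z ∈ Zs b r R := by
    intro z hz
    rw [hSB] at hz
    exact hz.right_mem.2
  have hys' := h.mem_sr hy
  have hqs := h'.mem_sr hp
  rw [nm_le] at hy0
  rw [le_nm] at hy1
  simp only [Prod.fst_sub, Prod.snd_sub] at hy0 hy1
  obtain ⟨a, ha⟩ : ∃ a : ℤ, a = 2 * (b.1 - R) - 2 := ⟨_, rfl⟩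
  obtain ⟨c, hc⟩ : ∃ c : ℤ, c = 2 * (b.1 + R) + 2 := ⟨_, rfl⟩
  obtain ⟨A', hA'⟩ : ∃ A' : Set Pt, A' = SA ∪
      {z | z.2 = 2 * b.2 - 1 ∧ a ≤ z.1 ∧ z.1 ≤ c ∧ (z.1 ≤ 2 * (b.1 - r) ∨ 2 * (b.1 + r) ≤ z.1)} :=
    ⟨_, rfl⟩
  obtain ⟨B', hB'⟩ : ∃ B' : Set Pt, B' = SB ∪
      ({z | 2 * (b.1 - r) < z.1 ∧ z.1 < 2 * (b.1 + r) ∧ 2 * b.2 - 2 ≤ z.2 ∧ z.2 < 2 * (b.2 + r)} ∪
      {z | (z.1 = 2 * (b.1 - R) - 1 ∨ z.1 = 2 * (b.1 + R) + 1) ∧ 2 * b.2 ≤ z.2 ∧
        z.2 ≤ 2 * (b.2 + R)}) := ⟨_, rfl⟩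
  simp only [sr, Set.mem_ofPred_eq] at hy hys' hp hqs
  -- the left-right path
  have c1 : Conn A' (a, 2 * b.2 - 1) (2 * p.1, 2 * b.2 - 1) := by
    refine conn_row fun i hi hi' => ?_
    rw [hA']
    right
    simp only [Set.mem_ofPred_eq, true_and]
    omega
  have c2 : Conn A' (2 * q.1, 2 * b.2 - 1) (c, 2 * b.2 - 1) := by
    refine conn_row fun i hi hi' => ?_
    rw [hA']
    right
    simp only [Set.mem_ofPred_eq, true_and]
    omega
  have hA1 : Conn A' (2 * p.1, 2 * p.2) (2 * q.1, 2 * q.2) := hA.mono (by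
    rw [hA']; exact Set.subset_union_left)
  have cA : Conn A' (a, 2 * b.2 - 1) (c, 2 * b.2 - 1) := by
    refine (c1.tail ?_ hA1.left_mem).trans (hA1.trans ?_)
    · rw [adj_iff]; dsimp only; omega
    · exact ((Conn.refl hA1.right_mem).tail (by rw [adj_iff]; dsimp only; omega) c2.left_mem).trans c2
  -- the bottom-top path
  have hB1 : Conn B' (2 * y.1, 2 * y.2) (2 * y'.1, 2 * y'.2) := hB.mono (by
    rw [hB']; exact Set.subset_union_left)
  have hin : ∀ z : Pt, 2 * (b.1 - r) < z.1 → z.1 < 2 * (b.1 + r) → 2 * b.2 - 2 ≤ z.2 →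
      z.2 < 2 * (b.2 + r) → z ∈ B' ∧ Conn B' (2 * b.1, 2 * b.2 - 2) z := by
    intro z h1 h2 h3 h4
    have key : ∀ w : Pt, 2 * (b.1 - r) < w.1 → w.1 < 2 * (b.1 + r) → 2 * b.2 - 2 ≤ w.2 →
      w.2 < 2 * (b.2 + r) → w ∈ B' := by
      intro w k1 k2 k3 k4
      rw [hB']
      right; left
      exact ⟨k1, k2, k3, k4⟩
    refine ⟨key z h1 h2 h3 h4, ?_⟩
    have e1 : Conn B' (2 * b.1, 2 * b.2 - 2) (z.1, 2 * b.2 - 2) :=
      conn_row fun i hi hi' => key _ (by dsimp only; omega) (by dsimp only; omega)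
        (by dsimp only; omega) (by dsimp only; omega)
    have e2 : Conn B' (z.1, 2 * b.2 - 2) (z.1, z.2) :=
      conn_col fun i hi hi' => key _ (by dsimp only; omega) (by dsimp only; omega)
        (by dsimp only; omega) (by dsimp only; omega)
    exact e1.trans e2
  have cB1 : Conn B' (2 * b.1, 2 * b.2 - 2) (2 * y.1, 2 * y.2) := by
    by_cases k1 : y.1 = b.1 - r
    · by_cases k2 : y.2 = b.2 + r
      · obtain ⟨m, hm⟩ := hin (2 * y.1 + 1, 2 * y.2 - 1) (by dsimp only; omega) (by dsimp only; omega)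
          (by dsimp only; omega) (by dsimp only; omega)
        exact hm.tail (by rw [adj_iff]; dsimp only; omega) hB1.left_mem
      · obtain ⟨m, hm⟩ := hin (2 * y.1 + 1, 2 * y.2) (by dsimp only; omega) (by dsimp only; omega)
          (by dsimp only; omega) (by dsimp only; omega)
        exact hm.tail (by rw [adj_iff]; dsimp only; omega) hB1.left_mem
    · by_cases k2 : y.1 = b.1 + r
      · by_cases k3 : y.2 = b.2 + r
        · obtain ⟨m, hm⟩ := hin (2 * y.1 - 1, 2 * y.2 - 1) (by dsimp only; omega)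
            (by dsimp only; omega) (by dsimp only; omega) (by dsimp only; omega)
          have hz : ((2 * y.1 - 1, 2 * y.2) : Pt) ∈ B' := by
            rw [hB']
            left
            rw [hSB]
            refine (Conn.refl (h.lift hy hye).left_mem).tail (by rw [adj_iff]; dsimp only; omega) ?_
            refine ⟨Or.inr ⟨not_ctr_right (a := y.2) rfl, ?_⟩, ?_⟩
            · simp only [st]; omega
            · simp only [Zs, Set.mem_ofPred_eq]; omega
          exact (hm.tail (by rw [adj_iff]; dsimp only; omega) hz).tail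
            (by rw [adj_iff]; dsimp only; omega) hB1.left_mem
        · obtain ⟨m, hm⟩ := hin (2 * y.1 - 1, 2 * y.2) (by dsimp only; omega) (by dsimp only; omega)
            (by dsimp only; omega) (by dsimp only; omega)
          exact hm.tail (by rw [adj_iff]; dsimp only; omega) hB1.left_mem
      · obtain ⟨m, hm⟩ := hin (2 * y.1, 2 * y.2 - 1) (by dsimp only; omega) (by dsimp only; omega)
          (by dsimp only; omega) (by dsimp only; omega)
        exact hm.tail (by rw [adj_iff]; dsimp only; omega) hB1.left_mem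
  have cB2 : ∃ z : Pt, z.2 = 2 * (b.2 + R) ∧ Conn B' (2 * y'.1, 2 * y'.2) z := by
    by_cases k1 : y'.2 = b.2 + R
    · exact ⟨_, by dsimp only; omega, Conn.refl hB1.right_mem⟩
    by_cases k2 : y'.1 = b.1 - R
    · refine ⟨(2 * y'.1 - 1, 2 * (b.2 + R)), rfl, ?_⟩
      have e1 : Conn B' (2 * y'.1 - 1, 2 * y'.2) (2 * y'.1 - 1, 2 * (b.2 + R)) := by
        refine conn_col fun i hi hi' => ?_
        rw [hB']
        right; right
        simp only [Set.mem_ofPred_eq]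
        omega
      exact ((Conn.refl hB1.right_mem).tail (by rw [adj_iff]; dsimp only; omega)
        e1.left_mem).trans e1
    · refine ⟨(2 * y'.1 + 1, 2 * (b.2 + R)), rfl, ?_⟩
      have e1 : Conn B' (2 * y'.1 + 1, 2 * y'.2) (2 * y'.1 + 1, 2 * (b.2 + R)) := by
        refine conn_col fun i hi hi' => ?_
        rw [hB']
        right; right
        simp only [Set.mem_ofPred_eq]
        omega
      exact ((Conn.refl hB1.right_mem).tail (by rw [adj_iff]; dsimp only; omega)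
        e1.left_mem).trans e1
  obtain ⟨z1, hz1, k1⟩ := cB2
  have cB := (cB1.trans hB1).trans k1
  obtain ⟨z, hzA, hzB⟩ := cross (A := A') (B := B') (a := a) (b := c)
    (c := 2 * b.2 - 2) (d := 2 * (b.2 + R)) (by
      intro z hz
      rw [hA'] at hz
      rcases hz with hz | hz
      · have hz := hSAZ z hz
        simp only [Zs, Set.mem_ofPred_eq] at hz; omega
      · simp only [Set.mem_ofPred_eq] at hz; omega) (by
      intro z hz
      rw [hB'] at hz
      rcases hz with hz | hz | hz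
      · have hz := hSBZ z hz
        simp only [Zs, Set.mem_ofPred_eq] at hz; omega
      · simp only [Set.mem_ofPred_eq] at hz; omega
      · simp only [Set.mem_ofPred_eq] at hz; omega) cA rfl rfl cB rfl hz1
  rw [hA'] at hzA
  rw [hB'] at hzB
  rcases hzA with hzA | hzA
  · rcases hzB with hzB | hzB | hzB
    · rw [hSA] at hzA
      rw [hSB] at hzB
      exact nr_proj (Conn.trans hzA (Conn.symm hzB)) (nr_dbl e p) (nr_dbl e y)
    · have hzA' := hSAZ z hzA
      simp only [Zs, Set.mem_ofPred_eq] at hzA' hzB; omega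
    · have hzA' := hSAZ z hzA
      simp only [Zs, Set.mem_ofPred_eq] at hzA' hzB; omega
  · rcases hzB with hzB | hzB | hzB
    · have hzB := hSBZ z hzB
      simp only [Zs, Set.mem_ofPred_eq] at hzA hzB; omega
    · simp only [Set.mem_ofPred_eq] at hzA hzB; omega
    · simp only [Set.mem_ofPred_eq] at hzA hzB; omega

/-! ### The mirror image -/

/-- The mirror image of a configuration. -/
def mir (b : Pt) (ω : Cfg) : Cfg := fun v => ω (mq b v)

theorem mir_mir (b : Pt) (ω : Cfg) : mir b (mir b ω) = ω := by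
  funext v
  show ω (mq b (mq b v)) = ω v
  rw [mq_mq]

theorem cs_mir (b : Pt) (c : Bool) (ω : Cfg) : {w | mq b w ∈ cs c ω} = cs c (mir b ω) := rfl

theorem pw_mir {b : Pt} {c : Bool} {r R : ℤ} {ω : Cfg} {u v : Pt}
    (h : Pw (cs c ω ∩ dq b r R) u v) : Pw (cs c (mir b ω) ∩ dq b r R) (mr b u) (mr b v) :=
  pw_mr h

theorem pw_mir' {b : Pt} {c : Bool} {r R : ℤ} {ω : Cfg} {u v : Pt}
    (h : Pw (cs c (mir b ω) ∩ dq b r R) u v) : Pw (cs c ω ∩ dq b r R) (mr b u) (mr b v) := by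
  have := pw_mir h
  rwa [mir_mir] at this

theorem mr_sr {b v : Pt} {r R : ℤ} : mr b v ∈ sr b r R ↔ v ∈ sr b r R := by
  simp only [sr, mr, Set.mem_ofPred_eq]
  omega

theorem mr_par (b v : Pt) : ((mr b v).1 + (mr b v).2) % 2 = (v.1 + v.2) % 2 := by
  simp only [mr]
  omega

theorem mr_ray {b v : Pt} {r R : ℤ} {s c : Bool} :
    mr b v ∈ ray s c b r R ↔ v ∈ ray (!s) c b r R := by
  simp only [H192.TA.ray, Set.mem_ofPred_eq, mr_sr, mr_par, sgn_not]
  simp only [mr]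
  constructor <;> rintro ⟨h1, h2, h3, h4⟩ <;> refine ⟨h1, h2, ?_, h4⟩
  · rcases sgn_or s with e | e <;> rw [e] at h3 ⊢ <;> omega
  · rcases sgn_or s with e | e <;> rw [e] at h3 ⊢ <;> omega

/-! ### Three arms -/

/-- A crossing of colour `c` which is joined to none of the two rays. -/
def X3 (c : Bool) (b : Pt) (r R : ℤ) : Set Cfg :=
  {ω | ∃ y y', y ∈ sr b r R ∧ (y.1 + y.2) % 2 = pr c ∧ nm (y - b) ≤ r ∧
    Pw (cs c ω ∩ dq b r R) y y' ∧ R ≤ nm (y' - b) ∧
    ∀ (s : Bool), y ∉ Kl c b r R (ray s c b r R) ω}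

theorem X3_mir {c : Bool} {b : Pt} {r R : ℤ} {ω : Cfg} (h : ω ∈ X3 c b r R) :
    mir b ω ∈ X3 c b r R := by
  obtain ⟨y, y', h1, h2, h3, h4, h5, h6⟩ := h
  refine ⟨mr b y, mr b y', mr_sr.2 h1, by rw [mr_par, h2], by rw [nm_mr]; exact h3, pw_mir h4,
    by rw [nm_mr]; exact h5, fun s hs => ?_⟩
  obtain ⟨p, hp, hpy⟩ := mem_Kl.1 hs
  refine h6 (!s) (mem_Kl.2 ⟨mr b p, ?_, ?_⟩)
  · rw [mr_ray, Bool.not_not]
    exact hp
  · have := pw_mir' hpy
    rwa [mr_mr] at this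

theorem ray_left {c : Bool} {b p : Pt} {r R : ℤ} (hr : 1 ≤ r) (g1 : p ∈ sr b r R)
    (g2 : p.1 ≤ b.1 - r) (g3 : p.2 = b.2) (g4 : (p.1 + p.2) % 2 = pr c) :
    p ∈ ray false c b r R := by
  refine ⟨g1, g3, ?_, g4⟩
  simp only [sgn, Bool.false_eq_true, if_false]
  omega

theorem ray_right {c : Bool} {b p : Pt} {r R : ℤ} (hr : 1 ≤ r) (g1 : p ∈ sr b r R)
    (g2 : b.1 + r ≤ p.1) (g3 : p.2 = b.2) (g4 : (p.1 + p.2) % 2 = pr c) :
    p ∈ ray true c b r R := by
  refine ⟨g1, g3, ?_, g4⟩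
  simp only [sgn, if_true]
  omega

theorem ray_le {c : Bool} {b p : Pt} {r R : ℤ} (hr : 1 ≤ r) (hp : p ∈ ray false c b r R) :
    p.1 ≤ b.1 - r := by
  obtain ⟨h1, h2, h3, -⟩ := hp
  simp only [sgn, Bool.false_eq_true, if_false] at h3
  simp only [sr, Set.mem_ofPred_eq] at h1
  omega

theorem ray_ge {c : Bool} {b p : Pt} {r R : ℤ} (hr : 1 ≤ r) (hp : p ∈ ray true c b r R) :
    b.1 + r ≤ p.1 := by
  obtain ⟨h1, h2, h3, -⟩ := hp
  simp only [sgn, if_true] at h3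
  simp only [sr, Set.mem_ofPred_eq] at h1
  omega

/-- The left ray is not joined to the right ray. -/
theorem X3_no {c : Bool} {b : Pt} {r R : ℤ} (hr : 1 ≤ r) (hrR : r ≤ R) {ω : Cfg}
    (h : ω ∈ X3 c b r R) {c' : Bool} {p q : Pt} (hp : p ∈ ray false c' b r R)
    (hq : q ∈ ray true c' b r R) : ¬ Pw (cs c' ω ∩ dq b r R) p q := by
  intro hpq
  obtain ⟨y, y', h1, h2, h3, h4, h5, h6⟩ := h
  by_cases hc : c' = c
  · subst hc
    refine h6 false (mem_Kl.2 ⟨p, hp, ?_⟩)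
    exact meet hr h1 h3 h5 h2 h4 hp.1 (ray_le hr hp) hp.2.1 hp.2.2.2 (ray_ge hr hq) hq.2.1 hpq
  · have e : c = !c' := by cases c <;> cases c' <;> simp_all
    subst e
    exact no_cross hr hrR (ω := ω) (c := c') ⟨y, y', h1, h2, h3, h4, h5⟩ (s := false) hp hq hpq

/-- The leftmost crossing. -/
theorem X3_left {c : Bool} {b : Pt} {r R : ℤ} (hr : 1 ≤ r) (hrR : r + 1 < R) {ω : Cfg}
    (h : ω ∈ X3 c b r R) : ∃ c', Y1 c' b r R ω := by
  obtain ⟨c', p, y, y', g1, g2, g3, g4, g5, g6, g7, g8⟩ := left_cross (ω := ω) (b := b) hr hrR (by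
    intro c' p q g1 g2 g3 g4 g5 g6
    by_contra hcon
    refine X3_no hr (by omega) h (ray_left hr g1 g2 g3 g4) ?_ g5
    exact ray_right hr (g5.mem_sr g1) (by omega) g6 (by rw [← g4]; exact g5.parity.symm))
  have hp := ray_left hr g1 g2 g3 g4
  refine ⟨c', ?_, y, mem_Kl.2 ⟨p, hp, g5⟩, g6, y', mem_Kl.2 ⟨y, rfl, g7⟩, g8⟩
  intro q hq hq'
  obtain ⟨p', hp', hpq⟩ := mem_Kl.1 hq
  exact X3_no hr (by omega) h hp' hq' hpq

theorem X3_F3 {c : Bool} {b : Pt} {r R : ℤ} {ω : Cfg} (h : ω ∈ X3 c b r R) :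
    ω ∈ F3 c b r R := by
  obtain ⟨y, y', h1, h2, h3, h4, h5, h6⟩ := h
  exact ⟨y, y', h6 false, h1, h2, h3, h4, h5⟩

/-- **Three arms**: the events of the block TWO-ARM, up to the mirror image. -/
theorem x3_sub {c : Bool} {b : Pt} {r R : ℤ} (hr : 1 ≤ r) (hrR : r + 1 < R) {ω : Cfg}
    (h : ω ∈ X3 c b r R) :
    (Y1 c b r R ω ∧ ω ∈ F3 c b r R) ∨ (Y1 c b r R (mir b ω) ∧ mir b ω ∈ F3 c b r R) ∨
      (Y1 (!c) b r R ω ∧ ω ∈ F3 (!c) b r R) := by
  obtain ⟨c1, h1⟩ := X3_left hr hrR h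
  obtain ⟨c2, h2⟩ := X3_left hr hrR (X3_mir h)
  by_cases e1 : c1 = c
  · subst e1
    exact Or.inl ⟨h1, X3_F3 h⟩
  by_cases e2 : c2 = c
  · subst e2
    exact Or.inr (Or.inl ⟨h2, X3_F3 (X3_mir h)⟩)
  have e1' : c1 = !c := by cases c <;> cases c1 <;> simp_all
  have e2' : c2 = !c := by cases c <;> cases c2 <;> simp_all
  subst e1' e2'
  refine Or.inr (Or.inr ⟨h1, ?_⟩)
  obtain ⟨-, y, hy, k1, y', hy', k2⟩ := h2
  obtain ⟨p, hp, hpy⟩ := mem_Kl.1 hy
  obtain ⟨y0, hy0, hyy'⟩ := mem_Kl.1 hy'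
  rw [Set.mem_singleton_iff] at hy0
  subst hy0
  have hpm : mr b p ∈ ray true (!c) b r R := by
    rw [mr_ray, Bool.not_true]
    exact hp
  have hpy' := pw_mir' hpy
  refine ⟨mr b y0, mr b y', fun hK => ?_, hpy'.mem_sr hpm.1, ?_, by rw [nm_mr]; exact k1,
    pw_mir' hyy', by rw [nm_mr]; exact k2⟩
  · obtain ⟨p', hp', hpy0⟩ := mem_Kl.1 hK
    exact X3_no hr (by omega) h hp' hpm (hpy0.trans hpy'.symm)
  · rw [← hpy'.parity]
    exact hpm.2.2.2

end Vale.Agent.P167.H587
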