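import Vale.Agent.P167.H587.FlatFK
import Vale.Agent.P167.H587.Meet
import Vale.Agent.P167.QM.Cons

/-!
# The two-sided comparison at a wired flat side, `q ≤ 1`

`HB z R`: the half box above the level of `z`. `side_two`: for every configuration outside which is
open below the level of `z` (in the box of radius `R`), the law inside of `HB z d` is comparable with
the law for the configuration which is open everywhere outside; the error is the probability of the
three-arm event `X3 true z d R` relative to the state of `HB z d`.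
-/

namespace Vale.Agent.P167.H587

open Finset Vale.Agent.P167.FK Vale.Agent.P167.FKA Vale.Agent.P167.H192.TA Relation
open Vale.Agent.P145.FB (PStep PConn)
open Vale.Agent.P167.H259 (PC_mono cf_mono)
open Vale.Agent.P167.H519 (pa_cor pb_cor pa_even pb_even pc_of_cor cf_in)
open Vale.Agent.P167.H635 (corn mem_corn_of_cor PC_refl PC_symm PC_trans Wi corn_even)
open Vale.Agent.P167.QM (HB consHB consBq)
open Vale.Agent.P167.H632 (nm_le le_nm cs)

variable {Q : ℝ} {z : ℤ × ℤ} {d R : ℤ} {ξ : Cfg}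

/-! ### The side -/

theorem side_step {ω : Cfg} (hs : ∀ v ∈ Bq z R, v.2 < z.2 → ω v = true) {x : ℤ}
    (hx : Even (x + z.2)) (h1 : z.1 - R ≤ x) (h2 : x + 2 ≤ z.1 + R) :
    PC ω (x, z.2) (x + 2, z.2) := by
  rw [Int.even_iff] at hx
  have a1 : ω (x, z.2 - 1) = true := hs _ (by rw [consBq]; dsimp only; omega) (by dsimp only; omega)
  have a2 : ω (x + 1, z.2 - 1) = true :=
    hs _ (by rw [consBq]; dsimp only; omega) (by dsimp only; omega)
  have b1 : PC ω (x, z.2) (x + 1, z.2 - 1) := pc_of_cor a1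
    ⟨Or.inl rfl, Or.inr (by dsimp only; omega)⟩ ⟨Or.inr rfl, Or.inl rfl⟩
    (by rw [Int.even_iff]; dsimp only; omega) (by rw [Int.even_iff]; dsimp only; omega)
  have b2 : PC ω (x + 1, z.2 - 1) (x + 2, z.2) := pc_of_cor a2
    ⟨Or.inl rfl, Or.inl rfl⟩ ⟨Or.inr (by dsimp only; omega), Or.inr (by dsimp only; omega)⟩
    (by rw [Int.even_iff]; dsimp only; omega) (by rw [Int.even_iff]; dsimp only; omega)
  exact PC_trans b1 b2

theorem side_conn {ω : Cfg} (hs : ∀ v ∈ Bq z R, v.2 < z.2 → ω v = true) {s t : ℤ × ℤ}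
    (h1 : Even (s.1 + s.2)) (h2 : Even (t.1 + t.2)) (h3 : s.2 = z.2) (h4 : t.2 = z.2)
    (h5 : z.1 - R ≤ s.1) (h6 : s.1 ≤ z.1 + R) (h7 : z.1 - R ≤ t.1) (h8 : t.1 ≤ z.1 + R) :
    PC ω s t := by
  have key : ∀ (n : ℕ) (x : ℤ), Even (x + z.2) → z.1 - R ≤ x → x + 2 * n ≤ z.1 + R →
      PC ω (x, z.2) (x + 2 * n, z.2) := by
    intro n
    induction n with
    | zero =>
      intro x _ _ _
      have : x + 2 * ((0 : ℕ) : ℤ) = x := by simp
      rw [this]
      exact PC_refl _ _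
    | succ n ih =>
      intro x hx g1 g2
      push_cast at g2 ⊢
      have k1 := ih x hx g1 (by omega)
      have k2 := side_step (x := x + 2 * n) hs (by rw [Int.even_iff] at *; omega) (by omega)
        (by omega)
      have : x + 2 * ((n : ℤ) + 1) = x + 2 * n + 2 := by ring
      rw [this]
      exact PC_trans k1 k2
  have main : ∀ s t : ℤ × ℤ, Even (s.1 + s.2) → Even (t.1 + t.2) → s.2 = z.2 → t.2 = z.2 →
      z.1 - R ≤ s.1 → t.1 ≤ z.1 + R → s.1 ≤ t.1 → PC ω s t := by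
    rintro ⟨x, y⟩ ⟨x', y'⟩ g1 g2 g3 g4 g5 g6 g7
    dsimp only at *
    subst g3 g4
    obtain ⟨n, hn⟩ : ∃ n : ℕ, x' = x + 2 * n := by
      refine ⟨((x' - x) / 2).toNat, ?_⟩
      rw [Int.even_iff] at *
      omega
    subst hn
    exact key n x g1 g5 g6
  rcases le_total s.1 t.1 with h | h
  · exact main s t h1 h2 h3 h4 h5 h8 h
  · exact PC_symm (main t s h2 h1 h4 h3 h7 h6 h)

/-! ### The outside -/

/-- The even sites outside of the half box. -/
def FarH (z : ℤ × ℤ) (R : ℤ) : Set (ℤ × ℤ) :=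
  {s | Even (s.1 + s.2) ∧ (s.1 ≤ z.1 - R ∨ z.1 + R ≤ s.1 ∨ s.2 ≤ z.2 ∨ z.2 + R ≤ s.2)}

theorem far_of_cor' {v s : ℤ × ℤ} (hv : v ∉ HB z R) (h : Cor v s) (he : Even (s.1 + s.2)) :
    s ∈ FarH z R := by
  rw [consHB, consBq] at hv
  obtain ⟨h1, h2⟩ := h
  refine ⟨he, ?_⟩
  rcases h1 with h1 | h1 <;> rcases h2 with h2 | h2 <;> omega

theorem wi_side : Wi (HB z R) ξ eta1 (FarH z R) where
  le v _ _ := rfl
  new v hv _ _ := ⟨far_of_cor' hv (pa_cor v) (pa_even v), far_of_cor' hv (pb_cor v) (pb_even v)⟩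
  con s hs t ht := by
    refine outside_conn (a := z.1 - R) (b := z.1 + R - 1) (c := z.2) (d := z.2 + R - 1)
      (fun v hv => ?_) hs.1 ht.1 ?_ ?_
    · show cf (HB z R) eta1 ∅ v = true
      have hvB : v ∉ HB z R := fun h => by
        rw [consHB, consBq] at h
        omega
      rw [cf_out hvB]
      rfl
    · have := hs.2
      omega
    · have := ht.2
      omega

/-- An even site of the side. -/
def ft (z : ℤ × ℤ) : ℤ × ℤ := if Even (z.1 + z.2) then z else (z.1 + 1, z.2)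

theorem ft_even (z : ℤ × ℤ) : Even ((ft z).1 + (ft z).2) := by
  unfold ft
  split_ifs with h
  · exact h
  · rw [Int.even_iff] at *
    dsimp only
    omega

theorem ft_snd (z : ℤ × ℤ) : (ft z).2 = z.2 := by
  unfold ft
  split_ifs <;> rfl

theorem ft_fst (z : ℤ × ℤ) : z.1 ≤ (ft z).1 ∧ (ft z).1 ≤ z.1 + 1 := by
  unfold ft
  split_ifs
  · omega
  · dsimp only
    omega

theorem ft_corn (hR : 1 ≤ R) : ft z ∈ corn (HB z R) := by
  refine mem_corn_of_cor (HB z R) (v := z) ?_ ?_ (ft_even z)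
  · rw [consHB, consBq]
    omega
  · refine ⟨?_, Or.inl (ft_snd z)⟩
    unfold ft
    split_ifs
    · exact Or.inl rfl
    · exact Or.inr rfl

theorem ft_far : ft z ∈ FarH z R := ⟨ft_even z, Or.inr (Or.inr (Or.inl (ft_snd z).le))⟩

/-! ### The three arms -/

theorem corn_half {x : ℤ × ℤ} (hx : x ∈ corn (HB z d)) :
    Even (x.1 + x.2) ∧ z.2 ≤ x.2 ∧ nm (x - z) ≤ d := by
  refine ⟨corn_even _ hx, ?_⟩
  rw [nm_le]
  simp only [Prod.fst_sub, Prod.snd_sub]
  rw [corn, mem_union, mem_image, mem_image] at hx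
  rcases hx with ⟨v, hv, rfl⟩ | ⟨v, hv, rfl⟩
  · rw [consHB, consBq] at hv
    obtain ⟨h1, h2⟩ := pa_cor v
    omega
  · rw [consHB, consBq] at hv
    obtain ⟨h1, h2⟩ := pb_cor v
    omega

/-- **A cluster which joins `HB z d` to the outside off the side gives three arms.** -/
theorem x3_of_path (hd : 1 ≤ d) (hdR : d ≤ R) (hξ : ∀ v ∈ Bq z R, v.2 < z.2 → ξ v = true)
    {S : Finset (ℤ × ℤ)} {x s : ℤ × ℤ} (hx : x ∈ corn (HB z d)) (hs : s ∈ FarH z R)
    (hxs : PC (cf (HB z R) ξ S) x s) (hxf : ¬ PC (cf (HB z R) ξ S) x (ft z)) :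
    cf (HB z R) eta1 S ∈ X3 true z d R := by
  set ω := cf (HB z R) ξ S with hω
  have hside : ∀ v ∈ Bq z R, v.2 < z.2 → ω v = true := by
    intro v hv hv2
    rw [hω, cf_out fun h => by rw [consHB] at h; omega]
    exact hξ v hv hv2
  have hf1 := ft_fst z
  have hf2 := ft_snd z
  -- sites of the side are not in the cluster
  have hns : ∀ u : ℤ × ℤ, PC ω x u → Even (u.1 + u.2) → u.2 = z.2 → z.1 - R ≤ u.1 →
      u.1 ≤ z.1 + R → False := fun u hu he h2 h3 h4 => hxf (PC_trans hu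
    (side_conn hside he (ft_even z) h2 hf2 h3 h4 (by omega) (by omega)))
  obtain ⟨hxe, hx2, hxn⟩ := corn_half hx
  -- first exit
  have key : ∀ u : ℤ × ℤ, PC ω x u →
      (∃ u', Pw (op ω ∩ {v | v ∈ HB z R}) x u' ∧ R ≤ nm (u' - z)) ∨
        (Pw (op ω ∩ {v | v ∈ HB z R}) x u ∧ z.2 < u.2 ∧ nm (u - z) < R) := by
    intro u hu
    unfold PC at hu
    induction hu with
    | refl =>
      by_cases h : nm (x - z) < R
      · refine Or.inr ⟨ReflTransGen.refl, ?_, h⟩
        rcases lt_or_eq_of_le hx2 with h2 | h2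
        · exact h2
        · exfalso
          rw [nm_le] at hxn
          simp only [Prod.fst_sub, Prod.snd_sub] at hxn
          exact hns x (PC_refl _ _) hxe h2.symm (by omega) (by omega)
      · exact Or.inl ⟨x, ReflTransGen.refl, by omega⟩
    | @tail y w hxy hyw ih =>
      rcases ih with h | ⟨h1, h2, h3⟩
      · exact Or.inl h
      · have hnb := H632.nm_step (b := z) hyw
        have hpar : Even (w.1 + w.2) := by
          have h4 := rtg_parity (show ReflTransGen (PStep (op ω)) x w from hxy.tail hyw)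
          rw [Int.even_iff] at *
          omega
        have hw1 : nm (w - z) ≤ R := by omega
        rw [nm_le] at hw1
        simp only [Prod.fst_sub, Prod.snd_sub] at hw1
        obtain ⟨p1, p2, p3⟩ := hyw
        have hw2 : z.2 < w.2 := by
          by_contra hcon
          exact hns w (hxy.tail ⟨p1, p2, p3⟩) hpar (by omega) (by omega) (by omega)
        have h3' : nm (y - z) ≤ R := h3.le
        rw [nm_le] at h3'
        simp only [Prod.fst_sub, Prod.snd_sub] at h3'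
        have hstep : PStep (op ω ∩ {v | v ∈ HB z R}) y w := by
          refine ⟨p1, p2, p3, ?_⟩
          rw [Set.mem_ofPred_eq, consHB, consBq]
          dsimp only
          omega
        by_cases h4 : nm (w - z) < R
        · exact Or.inr ⟨h1.tail hstep, hw2, h4⟩
        · exact Or.inl ⟨w, h1.tail hstep, by omega⟩
  obtain ⟨u, hu, hun⟩ : ∃ u', Pw (op ω ∩ {v | v ∈ HB z R}) x u' ∧ R ≤ nm (u' - z) := by
    rcases key s hxs with h | ⟨h1, h2, h3⟩
    · exact h
    · exfalso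
      have h4 := hs.2
      have h3' : ¬ R ≤ nm (s - z) := by omega
      rw [le_nm] at h3'
      simp only [Prod.fst_sub, Prod.snd_sub] at h3'
      omega
  -- the same path in the other configuration
  set ω' := cf (HB z R) eta1 S with hω'
  have hsame : ∀ v, v ∈ HB z R → ω v = ω' v := by
    intro v hv
    rw [hω, hω', cf_in hv, cf_in hv]
  have hu' : Pw (cs true ω' ∩ {v | v ∈ HB z R}) x u := by
    refine hu.mono ?_
    rintro v ⟨h1, h2⟩
    refine ⟨?_, h2⟩
    show ω' v = true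
    rw [← hsame v h2]
    exact h1
  obtain ⟨y0, y1, k1, k2, k3, k4, k5⟩ := cut_dq hdR hx2
    (fun v hv => (consHB.1 hv.2).2) hu' hxn hun
  have hdq : ∀ v ∈ dq z d R, v ∈ HB z R := by
    intro v hv
    simp only [dq, Set.mem_ofPred_eq] at hv
    rw [consHB, consBq]
    omega
  have hback : ∀ {G : Set (ℤ × ℤ)}, (∀ v ∈ G, v ∈ HB z R) → ∀ {p q : ℤ × ℤ},
      Pw (cs true ω' ∩ G) p q → PC ω p q := by
    intro G hG p q hpq
    refine Pw.mono ?_ hpq
    rintro v ⟨h1, h2⟩
    show ω v = true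
    rw [hsame v (hG v h2)]
    exact h1
  have hxy0 : PC ω x y0 := hback (fun v hv => hv) k1
  refine ⟨y0, y1, k2, ?_, k3, k4.mono (by rintro v ⟨⟨h1, -⟩, h2⟩; exact ⟨h1, h2⟩), k5, ?_⟩
  · have h1 := k1.parity
    show (y0.1 + y0.2) % 2 = 0
    rw [Int.even_iff] at hxe
    omega
  · intro s' hK
    obtain ⟨p, ⟨g1, g2, -, g4⟩, g5⟩ := mem_Kl.1 hK
    have hp : PC ω x p := PC_trans hxy0 (PC_symm (hback (fun v hv => hdq v hv) g5))
    simp only [sr, Set.mem_ofPred_eq] at g1
    refine hns p hp ?_ g2 (by omega) (by omega)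
    rw [Int.even_iff]
    exact g4

/-- **Two-sided comparison** at a wired flat side. -/
theorem side_two (hQ0 : 0 < Q) (hQ1 : Q ≤ 1) (hd : 1 ≤ d) (hdR : d ≤ R) (hg : Good ξ)
    (hξ : ∀ v ∈ Bq z R, v.2 < z.2 → ξ v = true) {δ : ℝ}
    (hδ : ∀ F : Cfg → ℝ, (∀ ω, 0 ≤ F ω) → Loc (HB z d) F →
      Ex Q (HB z R) eta1 (fun ω => F ω * (X3 true z d R).indicator 1 ω) ≤
        δ * Ex Q (HB z R) eta1 F)
    {F : Cfg → ℝ} (hF0 : ∀ ω, 0 ≤ F ω) (hF : Loc (HB z d) F) :
    (1 - δ) * Ex Q (HB z R) eta1 F ≤ Ex Q (HB z R) ξ F ∧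
      (1 - δ) * Ex Q (HB z R) ξ F ≤ Ex Q (HB z R) eta1 F := by
  have hVA : HB z d ⊆ HB z R := by
    intro v hv
    rw [consHB, consBq] at *
    omega
  exact two_f hQ0 hQ1 hVA hg f_good.2.2 wi_side (ft_corn (by omega)) ⟨ft z, ft_far, PC_refl _ _⟩
    (fun S _ x hx s hs hxs hxf => x3_of_path hd hdR hξ hx hs hxs hxf) hδ hF0 hF

end Vale.Agent.P167.H587
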