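import Vale.Agent.P167.H587.Side
import Vale.Agent.P167.H192.Q.Arm3

/-!
# The probability of three arms at a flat side: from the events of the block TWO-ARM to `X3`

`YF Q`: the bound with exponent `1 + α` for the events `Y1 ∩ F3`. `x3_bd`: the same for `X3`.
`x3_delta`: the form with a function of the inner half box, which is the hypothesis of `side_two`.
-/

namespace Vale.Agent.P167.H587

open Finset Vale.Agent.P167.FK Vale.Agent.P167.FKA Vale.Agent.P167.H192.TA Relation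
  Vale.Agent.P167.H192.Q
open Vale.Agent.P145.FB (PStep PConn)
open Vale.Agent.P167.H365 (hA mem_hA)
open Vale.Agent.P167.QM (HB consHB consBq)
open Vale.Agent.P167.H632 (nm_le le_nm cs pr)

variable {Q : ℝ}

/-- The three-arm bound for the events of the block TWO-ARM. -/
def YF (Q : ℝ) : Prop := ∃ (M : ℤ) (C α : ℝ), 1 ≤ M ∧ 0 < C ∧ 0 < α ∧
  ∀ (e c : Bool) (D : Finset (ℤ × ℤ)) (η : Cfg) (b : ℤ × ℤ) (r R : ℤ), Good η →
    FlatA e D η b r R → 1 ≤ r → 4 * M ^ 4 * r ≤ R →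
    Pr Q D η ({ω | Y1 c b (M * (M * r)) (R / (M * M)) ω} ∩
      F3 c b (M * (M * r)) (R / (M * M))) ≤ C * ((r : ℝ) / R) ^ (1 + α)

theorem X3_restrict {c : Bool} {b : ℤ × ℤ} {r r1 R1 R : ℤ} (h1 : r ≤ r1) (h2 : r1 ≤ R1)
    (h3 : R1 ≤ R) : X3 c b r R ⊆ X3 c b r1 R1 := by
  rintro ω ⟨y, y', g1, g2, g3, g4, g5, g6⟩
  have hy : b.2 ≤ y.2 := by
    simp only [sr, Set.mem_ofPred_eq] at g1
    omega
  obtain ⟨z0, z1, k1, k2, k3, k4, k5⟩ := cut_dq (G := cs c ω ∩ H192.TA.dq b r R) h2 hy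
    (fun v hv => by have := hv.2; simp only [H192.TA.dq, Set.mem_ofPred_eq] at this; omega) g4
    (g3.trans h1) (h3.trans g5)
  have hsub : H192.TA.dq b r1 R1 ⊆ H192.TA.dq b r R := by
    intro v hv
    simp only [H192.TA.dq, Set.mem_ofPred_eq] at hv ⊢
    omega
  refine ⟨z0, z1, k2, by rw [← k1.parity, g2], k3,
    k4.mono (Set.inter_subset_inter_left _ Set.inter_subset_left), k5, fun s hs => ?_⟩
  obtain ⟨p, ⟨p1, p2, p3, p4⟩, p5⟩ := mem_Kl.1 hs
  refine g6 s (mem_Kl.2 ⟨p, ⟨?_, p2, p3, p4⟩, (p5.mono (Set.inter_subset_inter_right _ hsub)).trans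
    (Pw.symm k1)⟩)
  simp only [sr, Set.mem_ofPred_eq] at p1 ⊢
  omega

/-! ### The mirror image -/

theorem sy_mq (b : ℤ × ℤ) : IsSy (mq b) := by
  have h := (sy_tr (2 * b.1, 0) (by rw [Int.even_iff]; dsimp only; omega)).comp sy_rx
  have e : mq b = (fun v : ℤ × ℤ => (v.1 + (2 * b.1, (0 : ℤ)).1, v.2 + (2 * b.1, (0 : ℤ)).2)) ∘
      (fun v : ℤ × ℤ => (-1 - v.1, v.2)) := by
    funext v
    simp only [mq, Function.comp, add_zero, Prod.mk.injEq, and_true]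
    ring
  rw [e]
  exact h

theorem image_mq (b : ℤ × ℤ) (D : Finset (ℤ × ℤ)) : (D.image (mq b)).image (mq b) = D := by
  rw [Finset.image_image]
  have : mq b ∘ mq b = id := by
    funext v
    exact mq_mq b v
  rw [this, Finset.image_id]

theorem mem_image_mq {b v : ℤ × ℤ} {D : Finset (ℤ × ℤ)} : v ∈ D.image (mq b) ↔ mq b v ∈ D := by
  rw [Finset.mem_image]
  constructor
  · rintro ⟨w, hw, rfl⟩
    rwa [mq_mq]
  · intro h
    exact ⟨mq b v, h, mq_mq b v⟩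

theorem pr_mir (hQ0 : 0 < Q) {D : Finset (ℤ × ℤ)} {η : Cfg} (hη : Good η) (b : ℤ × ℤ)
    (E : Set Cfg) : Pr Q D η {ω | mir b ω ∈ E} = Pr Q (D.image (mq b)) (η ∘ mq b) E := by
  have h := (sy_mq b).2 Q (D.image (mq b)) η (E.indicator 1) hQ0 hη
  rw [image_mq] at h
  unfold Pr
  rw [h]
  rfl

theorem flat_mir {e : Bool} {D : Finset (ℤ × ℤ)} {η : Cfg} {b : ℤ × ℤ} {r R : ℤ}
    (h : FlatA e D η b r R) : FlatA e (D.image (mq b)) (η ∘ mq b) b (r + 1) (R - 1) := by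
  intro v h1 h2
  have h3 := h (mq b v) ?_ ?_
  · rw [mem_image_mq]
    exact h3
  · rw [le_nm] at h1 ⊢
    simp only [mq, Prod.fst_sub, Prod.snd_sub] at h1 ⊢
    omega
  · rw [nm_le] at h2 ⊢
    simp only [mq, Prod.fst_sub, Prod.snd_sub] at h2 ⊢
    omega

theorem FlatA.mono {e : Bool} {D : Finset (ℤ × ℤ)} {η : Cfg} {b : ℤ × ℤ} {r r' R' R : ℤ}
    (h : FlatA e D η b r R) (h1 : r ≤ r') (h2 : R' ≤ R) : FlatA e D η b r' R' :=
  fun v g1 g2 => h v (by omega) (by omega)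

/-! ### The bound -/

theorem ind3 {A B1 B2 B3 : Set Cfg} {ω : Cfg} (h : ω ∈ A → ω ∈ B1 ∨ ω ∈ B2 ∨ ω ∈ B3) :
    A.indicator (1 : Cfg → ℝ) ω ≤ B1.indicator 1 ω + B2.indicator 1 ω + B3.indicator 1 ω := by
  have i1 := ind_nonneg B1 ω
  have i2 := ind_nonneg B2 ω
  have i3 := ind_nonneg B3 ω
  by_cases hA : ω ∈ A
  · rw [Set.indicator_of_mem hA]
    rcases h hA with h | h | h
    · rw [Set.indicator_of_mem h]
      simp only [Pi.one_apply]
      linarith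
    · rw [Set.indicator_of_mem h]
      simp only [Pi.one_apply]
      linarith
    · rw [Set.indicator_of_mem h]
      simp only [Pi.one_apply]
      linarith
  · rw [Set.indicator_of_notMem hA]
    linarith

/-- **Three arms.** -/
theorem x3_bd (hQ0 : 0 < Q) (hY : YF Q) : ∃ C α : ℝ, 0 < C ∧ 0 < α ∧
    ∀ (e c : Bool) (D : Finset (ℤ × ℤ)) (η : Cfg) (b : ℤ × ℤ) (r R : ℤ), Good η →
      FlatA e D η b r R → 1 ≤ r → r ≤ R →
      Pr Q D η (X3 c b r R) ≤ C * ((r : ℝ) / R) ^ (1 + α) := by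
  obtain ⟨M, C, α, hM, hC, hα, hY⟩ := hY
  have hM' : (1 : ℝ) ≤ M := by exact_mod_cast hM
  have hM4 : (1 : ℤ) ≤ M ^ 4 := one_le_pow₀ hM
  refine ⟨max ((16 * M ^ 4) ^ (1 + α)) (3 * C * 4 ^ (1 + α)), α, by positivity, hα,
    fun e c D η b r R hη hfl hr hrR => ?_⟩
  have hr' : (1 : ℝ) ≤ r := by exact_mod_cast hr
  have hR' : (r : ℝ) ≤ R := by exact_mod_cast hrR
  have hRp : (0 : ℝ) < R := by linarith
  have hq : 0 < (r : ℝ) / R := by positivity
  have h1α : (0 : ℝ) ≤ 1 + α := by linarith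
  by_cases hbig : R < 16 * M ^ 4 * r
  · have h1 : (R : ℝ) < 16 * M ^ 4 * r := by exact_mod_cast hbig
    have h4 : 1 ≤ 16 * (M : ℝ) ^ 4 * ((r : ℝ) / R) := by
      rw [← mul_div_assoc, le_div_iff₀ hRp]
      linarith
    calc Pr Q D η (X3 c b r R) ≤ 1 := Pr_le_one hQ0 _
      _ ≤ (16 * M ^ 4 * ((r : ℝ) / R)) ^ (1 + α) := Real.one_le_rpow h4 h1α
      _ = (16 * M ^ 4) ^ (1 + α) * ((r : ℝ) / R) ^ (1 + α) := Real.mul_rpow (by positivity) hq.le
      _ ≤ _ := mul_le_mul_of_nonneg_right (le_max_left _ _) (by positivity)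
  · push Not at hbig
    have hb1 : 4 * M ^ 4 * (r + 1) ≤ R - 1 := by nlinarith
    obtain ⟨hs, hs1, hs2⟩ := scale hM (r := r + 1) (R := R - 1) (by omega) hb1
    set r1 := M * (M * (r + 1)) with hr1
    set R1 := (R - 1) / (M * M) with hR1
    have hMM : 1 ≤ M * M := by nlinarith
    have a1 : r ≤ r1 := by
      rw [hr1]
      nlinarith
    have a2 : R1 ≤ R := (Int.ediv_le_self _ (by omega)).trans (by omega)
    have a3 : 1 ≤ r1 := by omega
    have k1 : Pr Q D η (X3 c b r R) ≤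
        Pr Q D η ({ω | Y1 c b r1 R1 ω} ∩ F3 c b r1 R1) +
        Pr Q D η {ω | mir b ω ∈ {ω | Y1 c b r1 R1 ω} ∩ F3 c b r1 R1} +
        Pr Q D η ({ω | Y1 (!c) b r1 R1 ω} ∩ F3 (!c) b r1 R1) := by
      unfold Pr
      rw [← Ex_add, ← Ex_add]
      refine Ex_mono hQ0 fun S _ => ind3 fun h => ?_
      exact x3_sub a3 hs1 (X3_restrict a1 (by omega) a2 h)
    have hfl1 : FlatA e D η b (r + 1) (R - 1) := FlatA.mono hfl (by omega) (by omega)
    have k2 := hY e c D η b (r + 1) (R - 1) hη hfl1 (by omega) hb1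
    have k3 := hY e c (D.image (mq b)) (η ∘ mq b) b (r + 1) (R - 1) ((sy_mq b).1 _ hη)
      (flat_mir hfl) (by omega) hb1
    have k4 := hY e (!c) D η b (r + 1) (R - 1) hη hfl1 (by omega) hb1
    rw [← hr1, ← hR1] at k2 k3 k4
    rw [pr_mir hQ0 hη] at k1
    have hR2 : (2 : ℝ) ≤ R := by
      have : (2 : ℤ) ≤ R := by nlinarith
      exact_mod_cast this
    have k5 : (((r + 1 : ℤ) : ℝ) / ((R - 1 : ℤ) : ℝ)) ^ (1 + α) ≤
        4 ^ (1 + α) * ((r : ℝ) / R) ^ (1 + α) := by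
      rw [← Real.mul_rpow (by norm_num) hq.le]
      push_cast
      refine Real.rpow_le_rpow (div_nonneg (by linarith) (by linarith)) ?_ h1α
      rw [← mul_div_assoc, div_le_div_iff₀ (by linarith) hRp]
      nlinarith
    have k6 := mul_le_mul_of_nonneg_left k5 hC.le
    calc Pr Q D η (X3 c b r R) ≤ 3 * C * 4 ^ (1 + α) * ((r : ℝ) / R) ^ (1 + α) := by
          have e1 : 3 * C * 4 ^ (1 + α) * ((r : ℝ) / R) ^ (1 + α) =
              3 * (C * (4 ^ (1 + α) * ((r : ℝ) / R) ^ (1 + α))) := by ring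
          rw [e1]
          linarith
      _ ≤ _ := mul_le_mul_of_nonneg_right (le_max_right _ _) (by positivity)

theorem x3_congr {c : Bool} {b : ℤ × ℤ} {r R : ℤ} {ω ω' : Cfg} (h : ∀ v ∈ dF b r R, ω v = ω' v)
    (h1 : ω ∈ X3 c b r R) : ω' ∈ X3 c b r R := by
  obtain ⟨y, y', g1, g2, g3, g4, g5, g6⟩ := h1
  refine ⟨y, y', g1, g2, g3, pw_congr h g4, g5, fun s hs => g6 s ?_⟩
  obtain ⟨p, hp, hpy⟩ := mem_Kl.1 hs
  exact mem_Kl.2 ⟨p, hp, pw_congr (fun v hv => (h v hv).symm) hpy⟩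

/-- **Three arms**, relative to the state of the inner half box. -/
theorem x3_delta (hQ0 : 0 < Q) (hY : YF Q) : ∃ C α : ℝ, 0 < C ∧ 0 < α ∧
    ∀ (c e : Bool) (z : ℤ × ℤ) (d R : ℤ) (D : Finset (ℤ × ℤ)) (η : Cfg), 1 ≤ d → d ≤ R → Good η →
      (∀ v ∈ Bq z R, (v ∈ D ↔ z.2 ≤ v.2) ∧ (v.2 < z.2 → η v = e)) →
      ∀ F : Cfg → ℝ, (∀ ω, 0 ≤ F ω) → Loc (HB z d) F →
      Ex Q D η (fun ω => F ω * (X3 c z d R).indicator 1 ω) ≤
        C * ((d : ℝ) / R) ^ (1 + α) * Ex Q D η F := by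
  obtain ⟨C, α, hC, hα, h⟩ := x3_bd hQ0 hY
  refine ⟨max (4 ^ (1 + α)) (C * 4 ^ (1 + α)), α, by positivity, hα,
    fun c e z d R D η hd hdR hη hfl F hF0 hF => ?_⟩
  have hd' : (1 : ℝ) ≤ d := by exact_mod_cast hd
  have hR' : (d : ℝ) ≤ R := by exact_mod_cast hdR
  have hRp : (0 : ℝ) < R := by linarith
  have hq : 0 < (d : ℝ) / R := by positivity
  have h1α : (0 : ℝ) ≤ 1 + α := by linarith
  have hE0 : 0 ≤ Ex Q D η F := Ex_nonneg hQ0 fun _ _ => hF0 _
  by_cases hbig : R < 4 * d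
  · have h1 : (R : ℝ) < 4 * d := by exact_mod_cast hbig
    have h4 : 1 ≤ 4 * ((d : ℝ) / R) := by
      rw [← mul_div_assoc, le_div_iff₀ hRp]
      linarith
    have k : (1 : ℝ) ≤ max (4 ^ (1 + α)) (C * 4 ^ (1 + α)) * ((d : ℝ) / R) ^ (1 + α) := by
      calc (1 : ℝ) ≤ (4 * ((d : ℝ) / R)) ^ (1 + α) := Real.one_le_rpow h4 h1α
        _ = 4 ^ (1 + α) * ((d : ℝ) / R) ^ (1 + α) := Real.mul_rpow (by positivity) hq.le
        _ ≤ _ := mul_le_mul_of_nonneg_right (le_max_left _ _) (by positivity)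
    calc Ex Q D η (fun ω => F ω * (X3 c z d R).indicator 1 ω) ≤ Ex Q D η F := by
          refine Ex_mono hQ0 fun S _ => ?_
          have i1 : (X3 c z d R).indicator (1 : Cfg → ℝ) (cf D η S) ≤ 1 := by
            by_cases hm : cf D η S ∈ X3 c z d R
            · rw [Set.indicator_of_mem hm]
              exact le_refl (1 : ℝ)
            · rw [Set.indicator_of_notMem hm]
              exact zero_le_one
          have := mul_le_mul_of_nonneg_left i1 (hF0 (cf D η S))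
          rwa [mul_one] at this
      _ = 1 * Ex Q D η F := (one_mul _).symm
      _ ≤ _ := mul_le_mul_of_nonneg_right k hE0
  · push Not at hbig
    have hflA : FlatA e D η z (d + 1) (R - 1) := by
      intro v g1 g2
      refine hfl v ?_
      rw [nm_le] at g2
      simp only [Prod.fst_sub, Prod.snd_sub] at g2
      rw [consBq]
      omega
    have hind : Ind (hA z (d + 1) (R - 1)) F := by
      refine hF.ind ?_
      rw [Finset.disjoint_left]
      intro v hv hv'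
      rw [consHB, consBq] at hv
      obtain ⟨-, g2, -⟩ := mem_hA.1 hv'
      rw [le_nm] at g2
      simp only [Prod.fst_sub, Prod.snd_sub] at g2
      omega
    have k1 := lift_G hQ0 hη hflA hF0 hind (E := X3 c z (d + 1) (R - 1))
      (p := C * (((d + 1 : ℤ) : ℝ) / ((R - 1 : ℤ) : ℝ)) ^ (1 + α))
      (fun ω hω hfl' => h e c _ ω z (d + 1) (R - 1) hω hfl' (by omega) (by omega))
    have k2 : Ex Q D η (fun ω => F ω * (X3 c z d R).indicator 1 ω) ≤
        Ex Q D η (fun ω => F ω * (X3 c z (d + 1) (R - 1)).indicator 1 ω) := by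
      refine Ex_mono hQ0 fun S _ => mul_le_mul_of_nonneg_left ?_ (hF0 _)
      exact H519.ind_le_of_imp fun h => X3_restrict (by omega) (by omega) (by omega) h
    have k5 : (((d + 1 : ℤ) : ℝ) / ((R - 1 : ℤ) : ℝ)) ^ (1 + α) ≤
        4 ^ (1 + α) * ((d : ℝ) / R) ^ (1 + α) := by
      rw [← Real.mul_rpow (by norm_num) hq.le]
      push_cast
      have hR2 : (4 : ℝ) ≤ R := by
        have : (4 : ℤ) ≤ R := by nlinarith
        exact_mod_cast this
      refine Real.rpow_le_rpow (div_nonneg (by linarith) (by linarith)) ?_ h1α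
      rw [← mul_div_assoc, div_le_div_iff₀ (by linarith) hRp]
      nlinarith
    refine (k2.trans k1).trans (mul_le_mul_of_nonneg_right ?_ hE0)
    calc C * (((d + 1 : ℤ) : ℝ) / ((R - 1 : ℤ) : ℝ)) ^ (1 + α) ≤
        C * (4 ^ (1 + α) * ((d : ℝ) / R) ^ (1 + α)) := mul_le_mul_of_nonneg_left k5 hC.le
      _ = C * 4 ^ (1 + α) * ((d : ℝ) / R) ^ (1 + α) := by ring
      _ ≤ _ := mul_le_mul_of_nonneg_right (le_max_right _ _) (by positivity)

/-- **The comparison at a wired flat side with exponent larger than one.** -/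
theorem side_mix (hQ0 : 0 < Q) (hQ1 : Q ≤ 1) (hY : YF Q) : ∃ C α : ℝ, 0 < C ∧ 0 < α ∧
    ∀ (z : ℤ × ℤ) (d R : ℤ) (ξ : Cfg), 1 ≤ d → d ≤ R → Good ξ →
      (∀ v ∈ Bq z R, v.2 < z.2 → ξ v = true) →
      ∀ F : Cfg → ℝ, (∀ ω, 0 ≤ F ω) → Loc (HB z d) F →
      (1 - C * ((d : ℝ) / R) ^ (1 + α)) * Ex Q (HB z R) eta1 F ≤ Ex Q (HB z R) ξ F ∧
      (1 - C * ((d : ℝ) / R) ^ (1 + α)) * Ex Q (HB z R) ξ F ≤ Ex Q (HB z R) eta1 F := by
  obtain ⟨C, α, hC, hα, h⟩ := x3_delta hQ0 hY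
  refine ⟨C, α, hC, hα, fun z d R ξ hd hdR hξ hside F hF0 hF => ?_⟩
  refine side_two hQ0 hQ1 hd hdR hξ hside (fun F hF0 hF => ?_) hF0 hF
  refine h true true z d R (HB z R) eta1 hd hdR f_good.2.2 (fun v hv => ⟨?_, fun _ => rfl⟩) F hF0 hF
  rw [consHB]
  exact and_iff_right hv

end Vale.Agent.P167.H587
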